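import Mathlib
import Vale.Agent.P092.RC.Defs
import Vale.Agent.P092.SP.UL
import Vale.Agent.P092.H53.PmA

/-!
P092, TEAM P, row [P-PUR], half A (helper43; letters of helper306, tools of helper53): the
surjectivity of an equivariant family of limits and the exclusion of a product which vanishes on
a pair of open sets. Group free: the only input on the `Γ`-space `Y` is that it is covered by
open cells, pairwise meeting, whose compact subsets can be moved into every open set.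
-/

set_option linter.all false

open scoped InnerProductSpace ENNReal Topology
open Filter ContinuousLinearMap TopologicalSpace Set

namespace Vale.Agent.P092.H43.PPur

open Vale.Agent.P092.RC (Cm TRN Pic)
open Vale.Agent.P092.H53

section defs

variable {E₀ Γ K H Y Y' Z : Type} [Group E₀] [TopologicalSpace E₀] [Group Γ]
  [NormedAddCommGroup K] [InnerProductSpace ℂ K] [CompleteSpace K] [TopologicalSpace Y] [Group H]
  [MulAction H Y]

/-- An equivariant family of limits of total mass `p`, permuted by `π`. -/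
structure Fam (π : E₀ →* (K →L[ℂ] K)) (lam : Γ →* (K →L[ℂ] K)) (W : Set (K →L[ℂ] K)) (q : Γ → H)
    (p : ℝ) (E : Z → (C(Y, ℂ) →ₗ[ℂ] (K →L[ℂ] K))) : Prop where
  ul : ∀ z, SP.UL (E z) p
  cm : ∀ z f, Cm W (E z f)
  cov : ∀ γ z (f f' : C(Y, ℂ)), (∀ y, f' (q γ • y) = f y) → lam γ * E z f * lam γ⁻¹ = E z f'
  pst : ∀ e z, ∃ z', ∀ f, π e * E z f * π e⁻¹ = E z' f

/-- Cells: open, covering, pairwise meeting, and every compact subset of a cell can be moved into
every nonempty open set. -/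
structure Prx (q : Γ → H) (Op : Y' → Set Y) : Prop where
  op : ∀ y', IsOpen (Op y')
  all : ∀ y, ∃ y', y ∈ Op y'
  meet : ∀ a b, (Op a ∩ Op b).Nonempty
  prox : ∀ y', ∀ D, D ⊆ Op y' → IsCompact D → ∀ U, IsOpen U → U.Nonempty →
    ∃ γ, ∀ y ∈ D, q γ • y ∈ U

end defs

section main

variable {E₀ Γ K H Y Y' Z Z' : Type} [Group E₀] [TopologicalSpace E₀] [Group Γ]
  [NormedAddCommGroup K] [InnerProductSpace ℂ K] [CompleteSpace K] [TopologicalSpace Y]
  [CompactSpace Y] [T2Space Y] [Group H] [MulAction H Y] [ContinuousConstSMul H Y]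
  {π : E₀ →* (K →L[ℂ] K)} {lam : Γ →* (K →L[ℂ] K)} {W : Set (K →L[ℂ] K)} {Ω : K} {q : Γ → H}
  {p : ℝ} {E : Z → (C(Y, ℂ) →ₗ[ℂ] (K →L[ℂ] K))} {Op : Y' → Set Y}

/-- the family in the letters of `H53.PmA` -/
theorem Fam.pm [Nonempty Z] (hE : Fam π lam W q p E) (hp : p ≠ 0) : Pm.Fam q π lam W E where
  star := fun z f => by rw [(hE.ul z).star, star_eq_adjoint]
  cm := hE.cm
  cov := hE.cov
  pcov := hE.pst
  one := by
    obtain ⟨z⟩ := ‹Nonempty Z›
    exact ⟨z, (p : ℂ), by exact_mod_cast hp, (hE.ul z).one⟩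

/-- no open set has a defect bigger than that of a cell -/
theorem df_cell (hP : Pic π lam W Ω) (hF : Pm.Fam q π lam W E) (hx : Prx q Op) {U : Set Y}
    (hU : IsOpen U) (hne : U.Nonempty) (a : Y') : Pm.df Ω E U ≤ Pm.df Ω E (Op a) := by
  refine le_of_forall_pos_le_add fun ε hε => ?_
  obtain ⟨D, hD, hDU, hV⟩ := Pm.df_semi (Ω := Ω) (Ex := E) (Op a) hε
  obtain ⟨γ, hγ⟩ := hx.prox a D hDU hD U hU hne
  have h1 := hV (Pm.pre (q γ) U) (fun y hy => hγ y hy)
  rwa [Pm.df_inv hP hF] at h1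

theorem vu_cell (hP : Pic π lam W Ω) (hF : Pm.Fam q π lam W E) (hx : Prx q Op) {U : Set Y}
    (hU : IsOpen U) (hne : U.Nonempty) {a : Y'} (h : U ⊆ Op a) :
    Pm.VU E U = Pm.VU E (Op a) :=
  Pm.vu_eq hP hF h (le_antisymm (Pm.df_mono h) (df_cell hP hF hx hU hne a))

theorem vu_cells (hP : Pic π lam W Ω) (hF : Pm.Fam q π lam W E) (hx : Prx q Op) (a b : Y') :
    Pm.VU E (Op a) = Pm.VU E (Op b) :=
  (vu_cell hP hF hx ((hx.op a).inter (hx.op b)) (hx.meet a b) inter_subset_left).symm.trans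
    (vu_cell hP hF hx ((hx.op a).inter (hx.op b)) (hx.meet a b) inter_subset_right)

theorem cell_le (hP : Pic π lam W Ω) (hF : Pm.Fam q π lam W E) (hx : Prx q Op) {U : Set Y}
    (hU : IsOpen U) (hne : U.Nonempty) (a : Y') : Pm.VU E (Op a) ≤ Pm.VU E U := by
  obtain ⟨y, hy⟩ := hne
  obtain ⟨b, hb⟩ := hx.all y
  have h1 := vu_cell hP hF hx (hU.inter (hx.op b)) ⟨y, hy, hb⟩ inter_subset_right
  rw [vu_cells hP hF hx a b, ← h1]
  exact Pm.vu_mono inter_subset_left

/-- the complex valued function of a real valued one -/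
noncomputable def cx (f : C(Y, ℝ)) : C(Y, ℂ) := ⟨fun y => (f y : ℂ), by fun_prop⟩

theorem tsupp_cx (f : C(Y, ℝ)) : tsupport (cx f) = tsupport f := by
  unfold tsupport
  congr 1
  ext y
  rw [Function.mem_support, Function.mem_support]
  exact not_congr Complex.ofReal_eq_zero

theorem cell_top (hP : Pic π lam W Ω) (hE : Fam π lam W q p E) (hp : p ≠ 0) [Nonempty Z]
    (hx : Prx q Op) (a : Y') : Pm.VU E (Op a) = ⊤ := by
  have hF := hE.pm hp
  obtain ⟨z⟩ := ‹Nonempty Z›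
  -- a finite subcover
  obtain ⟨t, ht⟩ := isCompact_univ.elim_finite_subcover Op hx.op (fun y _ => by
    obtain ⟨b, hb⟩ := hx.all y
    exact mem_iUnion.2 ⟨b, hb⟩)
  obtain ⟨f, hf⟩ := PartitionOfUnity.exists_isSubordinate (ι := t) (isClosed_univ (X := Y))
    (fun i => Op i) (fun i => hx.op i) (fun y hy => by
      obtain ⟨b, hb, hyb⟩ := mem_iUnion₂.1 (ht hy)
      exact mem_iUnion.2 ⟨⟨b, hb⟩, hyb⟩)
  have h1 : (1 : C(Y, ℂ)) = ∑ i : t, cx (f i) := by
    ext y
    have h2 := f.sum_eq_one (mem_univ y)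
    rw [finsum_eq_sum_of_fintype] at h2
    rw [ContinuousMap.coe_sum, Finset.sum_apply]
    change (1 : ℂ) = ∑ i : t, ((f i y : ℝ) : ℂ)
    rw [← Complex.ofReal_sum, h2, Complex.ofReal_one]
  rw [eq_top_iff]
  intro ζ _
  have h2 : E z 1 ζ ∈ Pm.VU E (Op a) := by
    rw [h1, map_sum, sum_apply]
    refine Submodule.sum_mem _ fun i _ => ?_
    rw [vu_cells hP hF hx a i]
    refine Pm.vu_mem ?_ ζ
    rw [tsupp_cx]
    exact hf i
  rw [(hE.ul z).one] at h2
  have h3 : (p : ℂ) ≠ 0 := by exact_mod_cast hp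
  have h4 := Submodule.smul_mem _ ((p : ℂ)⁻¹) h2
  have h5 : ((p : ℂ)⁻¹) • (((p : ℂ) • (1 : K →L[ℂ] K)) ζ) = ζ := by
    change ((p : ℂ)⁻¹) • ((p : ℂ) • ζ) = ζ
    rw [inv_smul_smul₀ h3]
  rwa [h5] at h4

/-- **Surjectivity**: the ranges of the functions supported in an open set span. -/
theorem vu_top (hP : Pic π lam W Ω) (hp : p ≠ 0) [Nonempty Z] (hE : Fam π lam W q p E)
    (hx : Prx q Op) {U : Set Y} (hU : IsOpen U) (hne : U.Nonempty) : Pm.VU E U = ⊤ := by
  obtain ⟨y, hy⟩ := hne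
  obtain ⟨a, ha⟩ := hx.all y
  rw [eq_top_iff, ← cell_top hP hE hp hx a]
  exact cell_le hP (hE.pm hp) hx hU ⟨y, hy⟩ a

/-- **Surjectivity**, dual form: an operator which annihilates the range of all functions with
support in one nonempty open set is zero. -/
theorem surj (hP : Pic π lam W Ω) (hp : p ≠ 0) [Nonempty Z] (hE : Fam π lam W q p E)
    (hx : Prx q Op) {U : Set Y} (hU : IsOpen U) (hne : U.Nonempty) {T : K →L[ℂ] K}
    (hT : ∀ z (f : C(Y, ℂ)), tsupport f ⊆ U → T * E z f = 0) : T = 0 := by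
  have h1 : Pm.SU E U ≤ LinearMap.ker (T : K →ₗ[ℂ] K) := by
    unfold Pm.SU
    rw [Submodule.span_le]
    rintro _ ⟨z, f, ζ, hf, rfl⟩
    exact congrArg (fun A : K →L[ℂ] K => A ζ) (hT z f hf)
  have h2 : IsClosed ((LinearMap.ker (T : K →ₗ[ℂ] K) : Submodule ℂ K) : Set K) :=
    (isClosed_singleton (x := (0 : K))).preimage T.continuous
  have h3 : Pm.VU E U ≤ LinearMap.ker (T : K →ₗ[ℂ] K) :=
    Submodule.topologicalClosure_minimal _ h1 h2
  rw [vu_top hP hp hE hx hU hne] at h3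
  ext1 ζ
  exact h3 (Submodule.mem_top (x := ζ))

/-- **Exclusion**: the product of two families of positive mass does not vanish on a pair of
nonempty open sets. -/
theorem excl (hP : Pic π lam W Ω) [Nonempty Z] [Nonempty Z'] {q' : ℝ}
    {F : Z' → (C(Y, ℂ) →ₗ[ℂ] (K →L[ℂ] K))} (hE : Fam π lam W q p E) (hF : Fam π lam W q q' F)
    (hx : Prx q Op) {U U' : Set Y} (hU : IsOpen U) (hne : U.Nonempty) (hU' : IsOpen U')
    (hne' : U'.Nonempty)
    (h0 : ∀ z z' (f g : C(Y, ℂ)), tsupport f ⊆ U → tsupport g ⊆ U' → E z f * F z' g = 0) :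
    p = 0 ∨ q' = 0 := by
  by_contra hc
  rw [not_or] at hc
  have h1 : ∀ z (f : C(Y, ℂ)), tsupport f ⊆ U → (1 : K →L[ℂ] K) * E z f = 0 := by
    intro z f hf
    rw [one_mul]
    exact surj hP hc.2 hF hx hU' hne' fun z' g hg => h0 z z' f g hf hg
  have h2 := surj hP hc.1 hE hx hU hne h1
  have h3 : Ω = 0 := congrArg (fun A : K →L[ℂ] K => A Ω) h2
  have h4 := hP.nΩ
  rw [h3, norm_zero] at h4
  exact zero_ne_one h4

/-- The version with two spaces (e.g. points and Lagrangians), two embeddings and cells each. -/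
theorem excl₂ {H' Y₂ Y₂' : Type} [TopologicalSpace Y₂] [CompactSpace Y₂] [T2Space Y₂] [Group H']
    [MulAction H' Y₂] [ContinuousConstSMul H' Y₂] {r : Γ → H'} {Op₂ : Y₂' → Set Y₂}
    (hP : Pic π lam W Ω) [Nonempty Z] [Nonempty Z'] {q' : ℝ}
    {F : Z' → (C(Y₂, ℂ) →ₗ[ℂ] (K →L[ℂ] K))} (hE : Fam π lam W q p E) (hF : Fam π lam W r q' F)
    (hx : Prx q Op) (hx' : Prx r Op₂) {U : Set Y} {U' : Set Y₂} (hU : IsOpen U)
    (hne : U.Nonempty) (hU' : IsOpen U') (hne' : U'.Nonempty)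
    (h0 : ∀ z z' (f : C(Y, ℂ)) (g : C(Y₂, ℂ)), tsupport f ⊆ U → tsupport g ⊆ U' →
      E z f * F z' g = 0) :
    p = 0 ∨ q' = 0 := by
  by_contra hc
  rw [not_or] at hc
  have h1 : ∀ z (f : C(Y, ℂ)), tsupport f ⊆ U → (1 : K →L[ℂ] K) * E z f = 0 := by
    intro z f hf
    rw [one_mul]
    exact surj hP hc.2 hF hx' hU' hne' fun z' g hg => h0 z z' f g hf hg
  have h2 := surj hP hc.1 hE hx hU hne h1
  have h3 : Ω = 0 := congrArg (fun A : K →L[ℂ] K => A Ω) h2
  have h4 := hP.nΩ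
  rw [h3, norm_zero] at h4
  exact zero_ne_one h4

end main

end Vale.Agent.P092.H43.PPur
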