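import Vale.Agent.P092.H859.CLD
import Vale.Agent.P092.H538.Fst
import Vale.Agent.P092.H790.BaseI

/-!
P092 (helper43), block D0-COM, part 2: locality on the picture.  On the fields of left bounded
vectors (left bounded for the whole group) `Ri d R v` and its adjoint are uniformly approximated
by finite sums of operators which shift the coordinate on the right.
-/

set_option linter.all false

open scoped InnerProductSpace ENNReal
open MeasureTheory Filter Topology ContinuousLinearMap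

namespace Vale.Agent.P092.H43

open Vale.Agent.P092.H790 (CData Ri baseL fld_comp ae_comp ri_ae RAt lxt mpt ept ept_ae ind_ae
  xf kp kp_ae fld_xf)
open Vale.Agent.P092.H160 Vale.Agent.P092.H553 Vale.Agent.P092.H432
open Vale.Agent.P092.H538 (fst fst_mp)

/-! ### Left bounded vectors -/

section fibre

variable {G ι : Type} [Group G]

/-- Left bounded vectors: the left translates form a Bessel family with bound one. -/
def LB (v : Ell2 (G × ι)) : Prop := Bes 1 (fun h : G => lx h v)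

theorem LB.le {v : Ell2 (G × ι)} (h : LB v) (s : Finset G) (w : Ell2 (G × ι)) :
    ∑ x ∈ s, ‖⟪lx x v, w⟫_ℂ‖ ^ 2 ≤ ‖w‖ ^ 2 := by
  have := h s w
  rwa [one_pow, one_mul] at this

theorem LB.norm {v : Ell2 (G × ι)} (h : LB v) : ‖v‖ ≤ 1 := by
  have h1 := h.le {1} v
  rw [Finset.sum_singleton] at h1
  have h2 : lx (1 : G) v = v := by rw [lx_one]; rfl
  rw [h2, inner_self_eq_norm_sq_to_K] at h1
  have h3 : ‖((‖v‖ : ℂ) ^ 2)‖ = ‖v‖ ^ 2 := by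
    rw [norm_pow, Complex.norm_real, norm_norm]
  have h4 : (‖v‖ ^ 2) ^ 2 ≤ ‖v‖ ^ 2 := by
    refine le_trans (le_of_eq ?_) h1
    rw [← h3]
    rfl
  by_contra hc
  rw [not_le] at hc
  have h5 : 1 < ‖v‖ ^ 2 := by nlinarith
  nlinarith

theorem LB.zero : LB (0 : Ell2 (G × ι)) := by
  intro s w
  simp

theorem LB.map {A : Ell2 (G × ι) →L[ℂ] Ell2 (G × ι)} (hA : ∀ s ξ, A (lx s ξ) = lx s (A ξ))
    (hA1 : ‖A‖ ≤ 1) {v : Ell2 (G × ι)} (h : LB v) : LB (A v) := by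
  intro s w
  have h1 : ∀ x : G, ⟪lx x (A v), w⟫_ℂ = ⟪lx x v, adjoint A w⟫_ℂ := fun x => by
    rw [← hA, adjoint_inner_right]
  simp only [h1]
  refine (h s _).trans ?_
  have h2 : ‖adjoint A w‖ ≤ ‖w‖ := by
    refine ((adjoint A).le_opNorm w).trans ?_
    rw [LinearIsometryEquiv.norm_map]
    exact mul_le_of_le_one_left (norm_nonneg _) hA1
  gcongr

theorem LB.dl (p : G × ι) : LB (dl p : Ell2 (G × ι)) := by
  classical
  intro s w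
  obtain ⟨g, i⟩ := p
  have h1 : ∀ x : G, ‖⟪lx x (H160.dl (g, i) : Ell2 (G × ι)), w⟫_ℂ‖ ^ 2 = ‖w (x * g, i)‖ ^ 2 :=
    fun x => by rw [lx_dl, inner_dl]
  simp only [h1, one_pow, one_mul]
  have h2 : ∑ x ∈ s, ‖w (x * g, i)‖ ^ 2 = ∑ y ∈ s.image (fun x => ((x * g, i) : G × ι)),
      ‖w y‖ ^ 2 := by
    rw [Finset.sum_image]
    intro a _ b _ hab
    simpa using hab
  rw [h2]
  exact sum_sq_le w _

/-- The coefficients of the product of a left bounded vector with an operator of the right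
algebra. -/
theorem LB.coef_le [Fintype ι] {v : Ell2 (G × ι)} (h : LB v) {u : Ell2 (G × ι)}
    {w : ι → Ell2 (G × ι)} (hu : ∀ g j, u (g, j) = ⟪lx g (w j), v⟫_ℂ) :
    ‖u‖ ^ 2 ≤ ∑ j, ‖w j‖ ^ 2 := by
  classical
  rw [norm_sq]
  refine (summable_sq u).tsum_le_of_sum_le fun s => ?_
  have hs : s ⊆ (s.image Prod.fst) ×ˢ (Finset.univ : Finset ι) := by
    intro p hp
    rw [Finset.mem_product]
    exact ⟨Finset.mem_image_of_mem _ hp, Finset.mem_univ _⟩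
  refine (Finset.sum_le_sum_of_subset_of_nonneg hs fun _ _ _ => by positivity).trans ?_
  rw [Finset.sum_product_right]
  refine Finset.sum_le_sum fun j _ => ?_
  have h1 : ∀ g : G, ‖u (g, j)‖ ^ 2 = ‖⟪lx g⁻¹ v, w j⟫_ℂ‖ ^ 2 := fun g => by
    rw [hu, inner_lx_left, ← inner_conj_symm, RCLike.norm_conj]
  simp only [h1]
  have h2 : ∑ g ∈ s.image Prod.fst, ‖⟪lx g⁻¹ v, w j⟫_ℂ‖ ^ 2 =
      ∑ g ∈ (s.image Prod.fst).image (fun g : G => g⁻¹), ‖⟪lx g v, w j⟫_ℂ‖ ^ 2 :=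
    (Finset.sum_image (s := s.image Prod.fst) (g := fun g : G => g⁻¹)
      (f := fun g => ‖⟪lx g v, w j⟫_ℂ‖ ^ 2) fun a _ b _ hab => inv_injective hab).symm
  rw [h2]
  exact h.le _ _

end fibre

/-! ### Fields of left bounded vectors -/

section field

variable {X : Type} [MeasurableSpace X] (μ : Measure X) [IsProbabilityMeasure μ]
  {G ι : Type} [Group G]

/-- Fields of left bounded vectors. -/
def BfL (G ι : Type) [Group G] : Set (Lp (Ell2 (G × ι)) 2 μ) :=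
  {ξ | ∀ᵐ x ∂μ, LB (ξ x : Ell2 (G × ι))}

variable {μ}

theorem norm_sq_int' {K : Type*} [NormedAddCommGroup K] [InnerProductSpace ℂ K] (ξ : Lp K 2 μ) :
    ‖ξ‖ ^ 2 = ∫ x, ‖ξ x‖ ^ 2 ∂μ := by
  have h1 := MeasureTheory.L2.inner_def (𝕜 := ℂ) ξ ξ
  rw [inner_self_eq_norm_sq_to_K] at h1
  have h2 : ((‖ξ‖ ^ 2 : ℝ) : ℂ) = ((∫ x, ‖ξ x‖ ^ 2 ∂μ : ℝ) : ℂ) := by
    push_cast
    refine h1.trans ?_
    rw [← integral_complex_ofReal]
    refine integral_congr_ae (Eventually.of_forall fun x => ?_)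
    change ⟪ξ x, ξ x⟫_ℂ = _
    rw [inner_self_eq_norm_sq_to_K]
    push_cast
    rfl
  exact_mod_cast h2

/-- The coefficient formula for an operator of the right algebra on an arbitrary vector. -/
theorem coef_gen {W : Lp (Ell2 (G × ι)) 2 μ →L[ℂ] Lp (Ell2 (G × ι)) 2 μ} (hW : RAt μ W)
    (ζ : Lp (Ell2 (G × ι)) 2 μ) (g : G) (j : ι) : ∀ᵐ x ∂μ,
    ((W ζ) x : Ell2 (G × ι)) (g, j) =
      ⟪lx g ((adjoint W (ept μ j)) x : Ell2 (G × ι)), (ζ x : Ell2 (G × ι))⟫_ℂ := by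
  have hi1 := H790.integrable_coord (W ζ) (g, j)
  obtain ⟨y, hy⟩ : ∃ y, y = lxt μ g (adjoint W (ept μ j)) := ⟨_, rfl⟩
  have hya : ∀ᵐ x ∂μ, (y x : Ell2 (G × ι)) = lx g ((adjoint W (ept μ j)) x) := by
    rw [hy]
    exact fld_comp (lx g) _
  have hi2 : Integrable (fun x => ⟪(y x : Ell2 (G × ι)), (ζ x : Ell2 (G × ι))⟫_ℂ) μ :=
    L2.integrable_inner (𝕜 := ℂ) y ζ
  have h0 : ∀ᵐ x ∂μ, ((W ζ) x : Ell2 (G × ι)) (g, j) =
      ⟪(y x : Ell2 (G × ι)), (ζ x : Ell2 (G × ι))⟫_ℂ := by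
    refine Integrable.ae_eq_of_forall_setIntegral_eq _ _ hi1 hi2 fun A hA _ => ?_
    rw [← H790.inner_ind_const A hA]
    have h1 : (Lp.constL 2 μ ℂ (dl (g, j)) : Lp (Ell2 (G × ι)) 2 μ) = lxt μ g (ept μ j) := by
      rw [ept, H790.lxt_const, lx_ep]
    rw [h1, ← adjoint_inner_left, hW.adjoint.ind_lxt g hA, ← hy, L2.inner_def,
      ← integral_indicator hA]
    refine integral_congr_ae ?_
    filter_upwards [ind_ae hA y] with x h2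
    rw [h2]
    by_cases hx : x ∈ A
    · rw [Set.indicator_of_mem hx, Set.indicator_of_mem hx]
    · rw [Set.indicator_of_notMem hx, Set.indicator_of_notMem hx, inner_zero_left]
  filter_upwards [h0, hya] with x h1 h2
  rw [h1, h2]

/-- **The estimate**: right multiplication of a left bounded field by an operator of the right
algebra. -/
theorem norm_le_of_bf [Countable G] [Fintype ι]
    {W : Lp (Ell2 (G × ι)) 2 μ →L[ℂ] Lp (Ell2 (G × ι)) 2 μ} (hW : RAt μ W)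
    {ζ : Lp (Ell2 (G × ι)) 2 μ} (hζ : ζ ∈ BfL μ G ι) :
    ‖W ζ‖ ^ 2 ≤ ∑ j, ‖adjoint W (ept μ j)‖ ^ 2 := by
  have h1 : ∀ᵐ x ∂μ, ∀ g j, ((W ζ) x : Ell2 (G × ι)) (g, j) =
      ⟪lx g ((adjoint W (ept μ j)) x : Ell2 (G × ι)), (ζ x : Ell2 (G × ι))⟫_ℂ :=
    ae_all_iff.2 fun g => ae_all_iff.2 fun j => coef_gen hW ζ g j
  have hint : ∀ ξ : Lp (Ell2 (G × ι)) 2 μ, Integrable (fun x => ‖ξ x‖ ^ 2) μ := fun ξ =>
    (Lp.memLp ξ).integrable_norm_pow (by norm_num)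
  have h2 : ∑ j, ‖adjoint W (ept μ j)‖ ^ 2 =
      ∫ x, ∑ j, ‖((adjoint W (ept μ j)) x : Ell2 (G × ι))‖ ^ 2 ∂μ := by
    rw [integral_finsetSum _ fun j _ => hint _]
    exact Finset.sum_congr rfl fun j _ => norm_sq_int' _
  rw [h2, norm_sq_int']
  refine integral_mono_ae (hint _) (integrable_finsetSum _ fun j _ => hint _) ?_
  filter_upwards [h1, hζ] with x hx hb
  exact LB.coef_le (ι := ι) (w := fun j => ((adjoint W (ept μ j)) x : Ell2 (G × ι))) hb hx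

/-- The trace property. -/
theorem tr_adj [Countable G] [Fintype ι]
    {W : Lp (Ell2 (G × ι)) 2 μ →L[ℂ] Lp (Ell2 (G × ι)) 2 μ} (hW : RAt μ W) :
    ∑ j, ‖adjoint W (ept μ j)‖ ^ 2 = ∑ j, ‖W (ept μ j)‖ ^ 2 := by
  have h1 := H790.exch_row (q := fun _ => 1) (C := 1) hW hW.adjoint (fun _ => by norm_num)
  have h2 : (mpt μ ι (fun _ : G => (1 : ℝ))) = 1 := by
    rw [mpt, H790.mp_one', H790.comp_one]
  rw [h2, adjoint_adjoint] at h1
  have h3 : ∀ v : Lp (Ell2 (G × ι)) 2 μ, ⟪v, (1 : Lp (Ell2 (G × ι)) 2 μ →L[ℂ] _) v⟫_ℂ =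
      ((‖v‖ ^ 2 : ℝ) : ℂ) := fun v => by
    change ⟪v, v⟫_ℂ = _
    rw [inner_self_eq_norm_sq_to_K]
    push_cast
    rfl
  simp only [h3] at h1
  exact_mod_cast h1

theorem both_le [Countable G] [Fintype ι]
    {W : Lp (Ell2 (G × ι)) 2 μ →L[ℂ] Lp (Ell2 (G × ι)) 2 μ} (hW : RAt μ W) {ε : ℝ} (hε : 0 ≤ ε)
    (hn : ∑ j, ‖W (ept μ j)‖ ^ 2 ≤ ε ^ 2) {ζ : Lp (Ell2 (G × ι)) 2 μ} (hζ : ζ ∈ BfL μ G ι) :
    ‖W ζ‖ ≤ ε ∧ ‖adjoint W ζ‖ ≤ ε := by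
  have h6 := norm_le_of_bf hW hζ
  rw [tr_adj hW] at h6
  have h7 := norm_le_of_bf hW.adjoint hζ
  rw [adjoint_adjoint] at h7
  exact ⟨abs_le_of_sq_le_sq' (h6.trans hn) hε |>.2, abs_le_of_sq_le_sq' (h7.trans hn) hε |>.2⟩

theorem rat_sub [Fintype ι] {n : ℕ} {T : Lp (Ell2 (G × ι)) 2 μ →L[ℂ] Lp (Ell2 (G × ι)) 2 μ}
    {Z : Fin n → (Lp (Ell2 (G × ι)) 2 μ →L[ℂ] Lp (Ell2 (G × ι)) 2 μ)} (hT : RAt μ T)
    (hZ' : ∀ j, RAt μ (Z j)) : RAt μ (T - ∑ j, Z j) := by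
  refine ⟨fun s => ?_, fun A hA => ?_⟩
  · rw [sub_mul, mul_sub, hT.1, Finset.sum_mul, Finset.mul_sum]
    congr 1
    exact Finset.sum_congr rfl fun j _ => (hZ' j).1 s
  · rw [sub_mul, mul_sub, hT.2 A hA, Finset.sum_mul, Finset.mul_sum]
    congr 1
    exact Finset.sum_congr rfl fun j _ => (hZ' j).2 A hA

theorem bfl_kp {D Λ : Type} [Group D] [Group Λ] [Countable Λ] (d : CData D Λ) (g : D)
    {ζ : Lp (Ell2 (G × ι)) 2 d.μ} (hζ : ζ ∈ BfL d.μ G ι) : kp d _ g ζ ∈ BfL d.μ G ι := by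
  change ∀ᵐ x ∂d.μ, _
  have h0 : ∀ᵐ x ∂d.μ, LB (ζ x : Ell2 (G × ι)) := hζ
  filter_upwards [kp_ae d g ζ, ae_comp (d.mp g⁻¹) h0] with x h1 h2
  rw [h1]
  exact h2

theorem bfl_map {D Λ : Type} [Group D] [Group Λ] [Countable Λ] [Fintype ι] (d : CData D Λ) {t : ℝ}
    {R : Λ → (Ell2 (G × ι) →L[ℂ] Ell2 (G × ι))} (hR : ARep t R) (g : D)
    {ζ : Lp (Ell2 (G × ι)) 2 d.μ} (hζ : ζ ∈ BfL d.μ G ι) : Ri d R g ζ ∈ BfL d.μ G ι := by
  change ∀ᵐ x ∂d.μ, _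
  have h0 : ∀ᵐ x ∂d.μ, LB (ζ x : Ell2 (G × ι)) := hζ
  filter_upwards [ri_ae d (fun v => hR.opNorm_le v) g ζ, ae_comp (d.mp g⁻¹) h0] with x h1 h2
  rw [h1]
  exact h2.map (fun s ξ => (hR.ra _).app s ξ) (hR.opNorm_le _)

theorem bfl_const {A : Set X} (hA : MeasurableSet A) (p : G × ι) :
    H790.ind μ _ A (Lp.constL 2 μ ℂ (dl p : Ell2 (G × ι))) ∈ BfL μ G ι := by
  change ∀ᵐ x ∂μ, _
  filter_upwards [ind_ae hA (Lp.constL 2 μ ℂ (dl p : Ell2 (G × ι))),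
    H790.const_ae (μ := μ) (dl p : Ell2 (G × ι))] with x h1 h2
  rw [h1]
  by_cases hx : x ∈ A
  · rw [Set.indicator_of_mem hx, h2]
    exact LB.dl p
  · rw [Set.indicator_of_notMem hx]
    exact LB.zero

theorem bfl_ept (i : ι) : (ept μ i : Lp (Ell2 (G × ι)) 2 μ) ∈ BfL μ G ι := by
  change ∀ᵐ x ∂μ, _
  filter_upwards [ept_ae (μ := μ) (Γ := G) i] with x h1
  rw [h1]
  exact LB.dl _

theorem bfl_norm {ζ : Lp (Ell2 (G × ι)) 2 μ} (hζ : ζ ∈ BfL μ G ι) :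
    ∀ᵐ x ∂μ, ‖(ζ x : Ell2 (G × ι))‖ ≤ 1 := by
  have h0 : ∀ᵐ x ∂μ, LB (ζ x : Ell2 (G × ι)) := hζ
  filter_upwards [h0] with x h1
  exact h1.norm

theorem bfl_dense [Fintype ι] :
    Dense ((Submodule.span ℂ (BfL μ G ι) : Submodule ℂ (Lp (Ell2 (G × ι)) 2 μ)) :
      Set (Lp (Ell2 (G × ι)) 2 μ)) := by
  refine H790.dense_row.mono (Submodule.span_mono ?_)
  rintro ξ ⟨p, A, hA, rfl⟩
  exact bfl_const hA p

end field

/-! ### Locality -/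

/-- **Locality.**  On the vectors of `Bf`, the operators `R v` and their adjoints are uniformly
approximated by finite sums of operators which shift the coordinate on the right. -/
structure Loc2 {Γ D K : Type} [Group Γ] [Group D] [NormedAddCommGroup K] [InnerProductSpace ℂ K]
    [CompleteSpace K] (mp : (Γ → ℝ) → (K →L[ℂ] K)) (R : D → (K →L[ℂ] K)) (Bd Bf : Set K) :
    Prop where
  sub : Bf ⊆ Bd
  dense : Dense ((Submodule.span ℂ Bf : Submodule ℂ K) : Set K)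
  map : ∀ v, ∀ ζ ∈ Bf, R v ζ ∈ Bf
  loc : ∀ v, ∀ ε : ℝ, 0 < ε → ∃ (S : Finset Γ) (X : Γ → (K →L[ℂ] K)),
    (∀ u ∈ S, ∀ F : Γ → ℝ, (∀ g, |F g| ≤ 1) → mp F * X u = X u * mp (fun g => F (g * u))) ∧
    ∀ ζ ∈ Bf, ‖R v ζ - ∑ u ∈ S, X u ζ‖ ≤ ε ∧
      ‖adjoint (R v) ζ - ∑ u ∈ S, adjoint (X u) ζ‖ ≤ ε

/-- Regrouping a finite sum of shifts. -/
theorem regroup {Γ K : Type} [NormedAddCommGroup K] [InnerProductSpace ℂ K] [CompleteSpace K]
    [Group Γ] (mp : (Γ → ℝ) → (K →L[ℂ] K)) {n : ℕ} (Z : Fin n → (K →L[ℂ] K)) (u : Fin n → Γ)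
    (T U W kv : K →L[ℂ] K)
    (hsh : ∀ j, ∀ F : Γ → ℝ, (∀ g, |F g| ≤ 1) → mp F * Z j = Z j * mp (fun g => F (g * u j)))
    (hkv : ∀ F : Γ → ℝ, (∀ g, |F g| ≤ 1) → mp F * kv = kv * mp F) (hT : T = U * kv)
    (hW : W = U - ∑ j, Z j) {ε : ℝ} {Bf : Set K} (h1 : ∀ ζ ∈ Bf, ‖W (kv ζ)‖ ≤ ε)
    (h2 : ∀ ζ ∈ Bf, ‖adjoint kv (adjoint W ζ)‖ ≤ ε) :
    ∃ (S : Finset Γ) (X : Γ → (K →L[ℂ] K)),
    (∀ u ∈ S, ∀ F : Γ → ℝ, (∀ g, |F g| ≤ 1) → mp F * X u = X u * mp (fun g => F (g * u))) ∧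
    ∀ ζ ∈ Bf, ‖T ζ - ∑ u ∈ S, X u ζ‖ ≤ ε ∧ ‖adjoint T ζ - ∑ u ∈ S, adjoint (X u) ζ‖ ≤ ε := by
  classical
  have hsum : ∑ w ∈ Finset.univ.image u, ∑ j with u j = w, Z j * kv = ∑ j, Z j * kv :=
    Finset.sum_fiberwise_of_maps_to (fun j _ => Finset.mem_image_of_mem _ (Finset.mem_univ j)) _
  have hRv : T - ∑ w ∈ Finset.univ.image u, ∑ j with u j = w, Z j * kv = W * kv := by
    rw [hsum, hW, sub_mul, Finset.sum_mul, hT]
  refine ⟨Finset.univ.image u, fun w => ∑ j with u j = w, Z j * kv, fun w _ F hF => ?_,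
    fun ζ hζ => ⟨?_, ?_⟩⟩
  · rw [Finset.mul_sum, Finset.sum_mul]
    refine Finset.sum_congr rfl fun j hj => ?_
    rw [Finset.mem_filter] at hj
    rw [← mul_assoc, hsh j F hF, mul_assoc, hkv _ (fun g => hF _), ← mul_assoc, hj.2]
  · have h4 : T ζ - ∑ w ∈ Finset.univ.image u, (∑ j with u j = w, Z j * kv) ζ = W (kv ζ) := by
      have h5 := congrArg (fun T : K →L[ℂ] K => T ζ) hRv
      rw [← ContinuousLinearMap.sum_apply]
      exact h5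
    rw [h4]
    exact h1 ζ hζ
  · have h4 : adjoint T ζ - ∑ w ∈ Finset.univ.image u, adjoint (∑ j with u j = w, Z j * kv) ζ =
        adjoint kv (adjoint W ζ) := by
      have h5 := congrArg (fun T : K →L[ℂ] K => adjoint T ζ) hRv
      rw [H790.adj_mul] at h5
      rw [← ContinuousLinearMap.sum_apply, ← map_sum]
      rw [map_sub] at h5
      exact h5
    rw [h4]
    exact h2 ζ hζ


end Vale.Agent.P092.H43
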