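import Vale.Agent.P092.H859.CLK
import Vale.Agent.P092.H43.Loc

/-!
P092 (helper43), block D0-COM, part 4: use of locality.  Multiplication operators by functions
which vary slowly under right translations asymptotically commute with every `R v` on the vectors
`R w ξ`, in the weak sense (`lu1`, `lu2`), and strongly when all the mass is on the cone.
-/

set_option linter.all false

open scoped InnerProductSpace
open Filter Topology ContinuousLinearMap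

namespace Vale.Agent.P092.H43

open Vale.Agent.P092.H859.CL

variable {Γ D K Y : Type} [Group Γ] [Group D] [NormedAddCommGroup K] [InnerProductSpace ℂ K]
  [CompleteSpace K] {mp : (Γ → ℝ) → (K →L[ℂ] K)} {R : D → (K →L[ℂ] K)} {Bd Bf : Set K}
  {ms : D → Set Γ → ℝ} {A : Subgroup D} {G1 G2 : Γ → ℝ} {bp : Γ → Y} {l : Filter D} {C : ℝ}

theorem mc_shift1 {X : K →L[ℂ] K} {u : Γ} (hs : ∀ F : Γ → ℝ, (∀ g, |F g| ≤ 1) →
    mp F * X = X * mp (fun g => F (g * u))) {F : Γ → ℂ} (hF : ∀ g, ‖F g‖ ≤ 1) :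
    mc mp F * X = X * mc mp (fun g => F (g * u)) := by
  rw [mc, mc, add_mul, mul_add, smul_mul_assoc, mul_smul_comm, hs _ (abs_re_le' hF),
    hs _ (abs_im_le' hF)]

/-- The shift rule for complex functions. -/
theorem mc_shift (h : Fn mp) {X : K →L[ℂ] K} {u : Γ} (hs : ∀ F : Γ → ℝ, (∀ g, |F g| ≤ 1) →
    mp F * X = X * mp (fun g => F (g * u))) (hC : 0 < C) {F : Γ → ℂ} (hF : ∀ g, ‖F g‖ ≤ C) :
    mc mp F * X = X * mc mp (fun g => F (g * u)) := by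
  obtain ⟨G, hG⟩ : ∃ G : Γ → ℂ, G = fun g => F g / C := ⟨_, rfl⟩
  have hG1 : ∀ g, ‖G g‖ ≤ 1 := fun g => by
    rw [hG]
    simp only [norm_div, Complex.norm_real, Real.norm_eq_abs, abs_of_pos hC]
    rw [div_le_one hC]
    exact hF g
  have hCC : (C : ℂ) ≠ 0 := by exact_mod_cast hC.ne'
  have e1 : F = fun g => (C : ℂ) * G g := by
    funext g
    rw [hG]
    simp only
    rw [mul_div_cancel₀ _ hCC]
  have e2 : (fun g => F (g * u)) = fun g => (C : ℂ) * G (g * u) := by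
    funext g
    rw [e1]
  rw [e2, e1, mc_smul h (C : ℂ) hG1, mc_smul h (C : ℂ) (fun g => hG1 (g * u)), smul_mul_assoc,
    mul_smul_comm, mc_shift1 hs hG1]

/-- **The quantitative form**: uniform in the two vectors of `Bf` and in the function. -/
theorem key_le (h : Fn mp) (hL : Loc2 mp R Bd Bf) (hn : ∀ ζ ∈ Bf, ‖ζ‖ ≤ 1) (v : D) {ε : ℝ}
    (hε : 0 < ε) : ∃ (S : Finset Γ) (N : ℝ), 0 ≤ N ∧ ∀ C : ℝ, 0 < C → ∀ F : Γ → ℂ,
      (∀ g, ‖F g‖ ≤ C) → ∀ a ∈ Bf, ∀ b ∈ Bf, ‖⟪b, (mc mp F * R v - R v * mc mp F) a⟫_ℂ‖ ≤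
        C * ε + N * ∑ u ∈ S, ‖mc mp (fun g => F (g * u) - F g) a‖ := by
  obtain ⟨S, X, hX, hloc⟩ := hL.loc v (ε / 2) (by positivity)
  refine ⟨S, ∑ u ∈ S, ‖X u‖, Finset.sum_nonneg fun _ _ => norm_nonneg _,
    fun C hC F hF a ha b hb => ?_⟩
  obtain ⟨M, hM⟩ : ∃ M, M = mc mp F := ⟨_, rfl⟩
  have hMn : ∀ ζ, ‖M ζ‖ ≤ C * ‖ζ‖ := fun ζ => by rw [hM]; exact mc_norm h hC.le hF ζ
  have hdiff : ∀ u ∈ S, M (X u a) - X u (M a) =
      X u (mc mp (fun g => F (g * u) - F g) a) := by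
    intro u hu
    have h1 := congrArg (fun T : K →L[ℂ] K => T a) (mc_shift h (hX u hu) hC hF)
    change mc mp F (X u a) = X u (mc mp (fun g => F (g * u)) a) at h1
    have h2 : mc mp (fun g => F (g * u) - F g) = mc mp (fun g => F (g * u)) - mc mp F := by
      have h3 := mc_smul h (-1) hF
      have h4 : (fun g => F (g * u) - F g) = fun g => F (g * u) + (-1) * F g := by
        funext g; ring
      have h5 : ∀ g, ‖(-1 : ℂ) * F g‖ ≤ C := fun g => by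
        rw [norm_mul, norm_neg, norm_one, one_mul]; exact hF g
      rw [h4, mc_add h (fun g => hF (g * u)) h5, h3, neg_one_smul, sub_eq_add_neg]
    rw [hM, h1, h2, ContinuousLinearMap.sub_apply, map_sub]
  have e1 : ⟪b, (M * R v - R v * M) a⟫_ℂ =
      ⟪b, M (R v a - ∑ u ∈ S, X u a)⟫_ℂ -
        ⟪adjoint (R v) b - ∑ u ∈ S, adjoint (X u) b, M a⟫_ℂ +
        ∑ u ∈ S, ⟪b, X u (mc mp (fun g => F (g * u) - F g) a)⟫_ℂ := by
    have h1 : ∑ u ∈ S, ⟪b, X u (mc mp (fun g => F (g * u) - F g) a)⟫_ℂ =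
        ⟪b, M (∑ u ∈ S, X u a)⟫_ℂ - ⟪∑ u ∈ S, adjoint (X u) b, M a⟫_ℂ := by
      rw [map_sum, inner_sum, sum_inner, ← Finset.sum_sub_distrib]
      refine Finset.sum_congr rfl fun u hu => ?_
      rw [← hdiff u hu, inner_sub_right, adjoint_inner_left]
    rw [h1, map_sub, inner_sub_right, inner_sub_left, ContinuousLinearMap.sub_apply,
      inner_sub_right, adjoint_inner_left]
    change ⟪b, M (R v a)⟫_ℂ - ⟪b, R v (M a)⟫_ℂ = _
    ring
  have hb1 := hn b hb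
  have ha1 := hn a ha
  have b1 : ‖⟪b, M (R v a - ∑ u ∈ S, X u a)⟫_ℂ‖ ≤ C * (ε / 2) := by
    calc _ ≤ ‖b‖ * ‖M (R v a - ∑ u ∈ S, X u a)‖ := norm_inner_le_norm _ _
      _ ≤ 1 * (C * ‖R v a - ∑ u ∈ S, X u a‖) := by gcongr; exact hMn _
      _ ≤ 1 * (C * (ε / 2)) := by
          have := (hloc a ha).1
          gcongr
      _ = C * (ε / 2) := one_mul _
  have b2 : ‖⟪adjoint (R v) b - ∑ u ∈ S, adjoint (X u) b, M a⟫_ℂ‖ ≤ C * (ε / 2) := by
    calc _ ≤ ‖adjoint (R v) b - ∑ u ∈ S, adjoint (X u) b‖ * ‖M a‖ := norm_inner_le_norm _ _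
      _ ≤ (ε / 2) * (C * ‖a‖) := by
          have := (hloc b hb).2
          have := hMn a
          gcongr
      _ ≤ (ε / 2) * (C * 1) := by gcongr
      _ = C * (ε / 2) := by ring
  have b3 : ‖∑ u ∈ S, ⟪b, X u (mc mp (fun g => F (g * u) - F g) a)⟫_ℂ‖ ≤
      (∑ u ∈ S, ‖X u‖) * ∑ u ∈ S, ‖mc mp (fun g => F (g * u) - F g) a‖ := by
    refine (norm_sum_le _ _).trans ?_
    rw [Finset.mul_sum]
    refine Finset.sum_le_sum fun u hu => ?_
    calc _ ≤ ‖b‖ * ‖X u (mc mp (fun g => F (g * u) - F g) a)‖ := norm_inner_le_norm _ _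
      _ ≤ 1 * (‖X u‖ * ‖mc mp (fun g => F (g * u) - F g) a‖) := by
          gcongr
          exact (X u).le_opNorm _
      _ = ‖X u‖ * ‖mc mp (fun g => F (g * u) - F g) a‖ := one_mul _
      _ ≤ _ := by
          gcongr
          exact Finset.single_le_sum (f := fun u => ‖X u‖) (fun _ _ => norm_nonneg _) hu
  rw [← hM, e1]
  refine (norm_add_le _ _).trans ?_
  refine (add_le_add (norm_sub_le _ _) b3).trans ?_
  linarith

/-- The set form of locality (the property `LocAt` of helper107). -/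
theorem loc_at (hL : Loc2 mp R Bd Bf) (v : D) (ε : ℝ) (hε : 0 < ε) :
    ∃ (S : Finset Γ) (X : Γ → (K →L[ℂ] K)),
      (∀ u ∈ S, ∀ B : Set Γ, st mp B * X u = X u * st mp {g | g * u ∈ B}) ∧
      ∀ ζ ∈ Bf, ‖R v ζ - ∑ u ∈ S, X u ζ‖ ≤ ε := by
  obtain ⟨S, X, hX, hloc⟩ := hL.loc v ε hε
  refine ⟨S, X, fun u hu B => ?_, fun ζ hζ => (hloc ζ hζ).1⟩
  exact hX u hu (H553.ind fun g => g ∈ B) (H553.abs_ind_le _)

/-- **Weak asymptotic commutation**, with an arbitrary family `Q w` preserving `Bf`. -/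
theorem lu_gen (h : SysF mp R Bd ms A G1 G2) (hL : Loc2 mp R Bd Bf)
    (hfin : ∀ r, (FF G1 G2 r).Finite) (he : Esc (st mp) R Bd A l) {F : Γ → ℂ}
    (hF : ∀ g, ‖F g‖ ≤ C) (hN : ∀ u, Neg G1 G2 fun g => F (g * u) - F g) (v : D)
    {Q : D → (K →L[ℂ] K)} (hQ : ∀ w, ∀ ζ ∈ Bf, Q w ζ ∈ Bf) (hQn : ∀ w, ‖Q w‖ ≤ 1) (ξ η : K) :
    Tendsto (fun w => ⟪Q w η, (mc mp F * R v - R v * mc mp F) (R w ξ)⟫_ℂ) l (𝓝 0) := by
  have hn : ∀ ζ ∈ Bf, ‖ζ‖ ≤ 1 := fun ζ hζ => h.sys.norm ζ (hL.sub hζ)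
  obtain ⟨T, hT⟩ : ∃ T, T = mc mp F * R v - R v * mc mp F := ⟨_, rfl⟩
  rw [← hT]
  refine bform_of_total (B := fun w x y => ⟪Q w x, T (R w y)⟫_ℂ) (C := ‖T‖) (norm_nonneg _)
    (fun w x y => ?_) (fun w x x' y => ?_) (fun w x y y' => ?_) (fun w c x y => ?_)
    (fun w c x y => ?_) hL.dense (fun η hη ξ hξ => ?_) η ξ
  · have h1 : ‖Q w x‖ ≤ ‖x‖ := ((Q w).le_opNorm x).trans
      (mul_le_of_le_one_left (norm_nonneg _) (hQn w))
    have h2 : ‖T (R w y)‖ ≤ ‖T‖ * ‖y‖ := (T.le_opNorm _).trans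
      (mul_le_mul_of_nonneg_left (h.sys.rep.norm_le w y) (norm_nonneg _))
    calc _ ≤ ‖Q w x‖ * ‖T (R w y)‖ := norm_inner_le_norm _ _
      _ ≤ ‖x‖ * (‖T‖ * ‖y‖) := by gcongr
      _ = ‖T‖ * ‖x‖ * ‖y‖ := by ring
  · simp only [map_add, inner_add_left]
  · simp only [map_add, inner_add_right]
  · simp only [map_smul, inner_smul_left, norm_mul, RCLike.norm_conj]
  · simp only [map_smul, inner_smul_right, norm_mul]
  · obtain ⟨C', hC'⟩ : ∃ C' : ℝ, C' = |C| + 1 := ⟨_, rfl⟩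
    have hC0 : 0 < C' := by rw [hC']; positivity
    have hF' : ∀ g, ‖F g‖ ≤ C' := fun g => by
      rw [hC']
      have := hF g
      have := le_abs_self C
      linarith
    rw [Metric.tendsto_nhds]
    intro δ hδ
    obtain ⟨S, N, hN0, hk⟩ := key_le h.fn hL hn v (ε := δ / (2 * C')) (by positivity)
    have h1 : ∀ u, Tendsto (fun w => ‖mc mp (fun g => F (g * u) - F g) (R w ξ)‖) l (𝓝 0) := by
      intro u
      have hb : ∀ g, ‖F (g * u) - F g‖ ≤ C + C := fun g =>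
        (norm_sub_le _ _).trans (add_le_add (hF _) (hF _))
      have h2 := (negl_fn h hfin he hb (hN u) ξ).norm
      rwa [norm_zero] at h2
    have h2 : Tendsto (fun w => N * ∑ u ∈ S, ‖mc mp (fun g => F (g * u) - F g) (R w ξ)‖) l
        (𝓝 0) := by
      have h3 := (tendsto_finsetSum S fun u _ => h1 u).const_mul N
      rwa [Finset.sum_const_zero, mul_zero] at h3
    filter_upwards [(Metric.tendsto_nhds.mp h2) (δ / 2) (by positivity)] with w hw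
    rw [dist_zero_right, Real.norm_eq_abs] at hw
    rw [dist_zero_right]
    have h4 := hk C' hC0 F hF' (R w ξ) (hL.map w ξ hξ) (Q w η) (hQ w η hη)
    rw [← hT] at h4
    have h5 : C' * (δ / (2 * C')) = δ / 2 := by field_simp
    rw [h5] at h4
    have h6 := (abs_lt.mp hw).2
    linarith

/-- **(LU1)** (the property `LU` of helper76). -/
theorem lu1 (h : SysF mp R Bd ms A G1 G2) (hL : Loc2 mp R Bd Bf)
    (hfin : ∀ r, (FF G1 G2 r).Finite) (he : Esc (st mp) R Bd A l) (F : Γ → ℂ) (C : ℝ)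
    (hF : ∀ g, ‖F g‖ ≤ C) (hN : ∀ u, Neg G1 G2 fun g => F (g * u) - F g) (v : D) (ξ η : K) :
    Tendsto (fun w => ⟪R w η, (R v * mc mp F - mc mp F * R v) (R w ξ)⟫_ℂ) l (𝓝 0) := by
  have h1 := (lu_gen h hL hfin he hF hN v (Q := R) (fun w ζ hζ => hL.map w ζ hζ)
    (fun w => h.sys.rep.opNorm_le w) ξ η).neg
  rw [neg_zero] at h1
  refine h1.congr fun w => ?_
  rw [← inner_neg_right, ← ContinuousLinearMap.neg_apply, neg_sub]

theorem mul_norm_le (h : Rep R) (v w : D) : ‖R v * R w‖ ≤ 1 :=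
  (norm_mul_le _ _).trans (mul_le_one₀ (h.opNorm_le v) (norm_nonneg _) (h.opNorm_le w))

/-- **(LU2)** -/
theorem lu2 (h : SysF mp R Bd ms A G1 G2) (hL : Loc2 mp R Bd Bf)
    (hfin : ∀ r, (FF G1 G2 r).Finite) (he : Esc (st mp) R Bd A l) {F : Γ → ℂ}
    (hF : ∀ g, ‖F g‖ ≤ C) (hN : ∀ u, Neg G1 G2 fun g => F (g * u) - F g) (v : D) (ξ η : K) :
    Tendsto (fun w => ⟪R v (R w η), mc mp F (R v (R w ξ))⟫_ℂ - ⟪R w η, mc mp F (R w ξ)⟫_ℂ) l
      (𝓝 0) := by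
  have h1 := lu_gen h hL hfin he hF hN v (Q := fun w => R v * R w)
    (fun w ζ hζ => hL.map v _ (hL.map w ζ hζ)) (fun w => mul_norm_le h.sys.rep v w) ξ η
  refine h1.congr fun w => ?_
  have h2 : ⟪R v (R w η), R v (mc mp F (R w ξ))⟫_ℂ = ⟪R w η, mc mp F (R w ξ)⟫_ℂ := by
    rw [h.sys.rep.inner_right]
    congr 1
    rw [← mul_ap', ← mul_ap', ← h.sys.rep.mul, ← h.sys.rep.mul, inv_mul_cancel, one_mul]
  change ⟪R v (R w η), mc mp F (R v (R w ξ)) - R v (mc mp F (R w ξ))⟫_ℂ = _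
  rw [inner_sub_right, h2]

/-- Elements which commute with the elements of the filter commute weakly asymptotically with the
conjugated multiplication operators. -/
theorem lu_comm (h : SysF mp R Bd ms A G1 G2) (hL : Loc2 mp R Bd Bf)
    (hfin : ∀ r, (FF G1 G2 r).Finite) (he : Esc (st mp) R Bd A l) {F : Γ → ℂ}
    (hF : ∀ g, ‖F g‖ ≤ C) (hN : ∀ u, Neg G1 G2 fun g => F (g * u) - F g) {v : D}
    (hv : ∀ᶠ w in l, v * w = w * v) (ξ η : K) :
    Tendsto (fun w => ⟪η, (R v * PC mp R w F - PC mp R w F * R v) ξ⟫_ℂ) l (𝓝 0) := by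
  refine (lu1 h hL hfin he F C hF hN v ξ η).congr' ?_
  filter_upwards [hv] with w hw
  have e1 : R v * R w⁻¹ = R w⁻¹ * R v := by
    rw [← h.sys.rep.mul, ← h.sys.rep.mul]
    congr 1
    rw [mul_inv_eq_iff_eq_mul, mul_assoc, hw, inv_mul_cancel_left]
  have e2 : R w * R v = R v * R w := by rw [← h.sys.rep.mul, ← h.sys.rep.mul, hw]
  have e3 : R v * PC mp R w F - PC mp R w F * R v =
      R w⁻¹ * ((R v * mc mp F - mc mp F * R v) * R w) := by
    rw [PC, mul_assoc (R w⁻¹ * mc mp F), e2]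
    calc R v * (R w⁻¹ * mc mp F * R w) - R w⁻¹ * mc mp F * (R v * R w)
        = (R v * R w⁻¹) * mc mp F * R w - R w⁻¹ * mc mp F * R v * R w := by
          simp only [mul_assoc]
      _ = _ := by
          rw [e1, sub_mul, mul_sub]
          simp only [mul_assoc]
  rw [e3]
  change ⟪R w η, (R v * mc mp F - mc mp F * R v) (R w ξ)⟫_ℂ =
    ⟪η, R w⁻¹ ((R v * mc mp F - mc mp F * R v) (R w ξ))⟫_ℂ
  rw [h.sys.rep.inner_left]

section full

variable [TopologicalSpace Y] [CompactSpace Y] [MulAction Γ Y]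
  {β : C(Y, ℂ) →⋆ₐ[ℂ] (K →L[ℂ] K)}

/-- The limit commutes exactly with the elements commuting with the elements of the filter. -/
theorem comm_of [l.NeBot] (hβ : IsLim mp R G1 G2 bp l β) (h : SysF mp R Bd ms A G1 G2)
    (hL : Loc2 mp R Bd Bf) (hG : GeoF G1 G2 bp) (he : Esc (st mp) R Bd A l) {v : D}
    (hv : ∀ᶠ w in l, v * w = w * v) (f : C(Y, ℂ)) : R v * β f = β f * R v :=
  hβ.comm_weak fun ξ η => lu_comm h hL hG.fin he (F := cfc G1 G2 bp f)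
    (cfc_norm fun y => f.norm_coe_le_norm y) (fun u => neg_right hG u f) hv ξ η

/-- The norms after an additional `R v`. -/
theorem norm_shift (h : SysF mp R Bd ms A G1 G2) (hL : Loc2 mp R Bd Bf)
    (hG : GeoF G1 G2 bp) (he : Esc (st mp) R Bd A l) (f : C(Y, ℂ)) (v : D) (ξ : K) :
    Tendsto (fun w => ‖mc mp (cfc G1 G2 bp f) (R v (R w ξ))‖ ^ 2 -
      ‖mc mp (cfc G1 G2 bp f) (R w ξ)‖ ^ 2) l (𝓝 0) := by
  obtain ⟨k, hk⟩ : ∃ k : C(Y, ℂ), k = star f * f := ⟨_, rfl⟩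
  have ek : cfc G1 G2 bp k = fun g => (starRingEnd ℂ) (cfc G1 G2 bp f g) * cfc G1 G2 bp f g := by
    have e0 : (k : Y → ℂ) = fun y => (starRingEnd ℂ) (f y) * f y := by
      rw [hk]; rfl
    rw [e0, H859.CL.cfc_mul, H859.CL.cfc_conj]
  have bd : ∀ f : C(Y, ℂ), ∀ g, ‖cfc G1 G2 bp f g‖ ≤ ‖f‖ := fun f =>
    cfc_norm fun y => f.norm_coe_le_norm y
  have h1 := lu2 h hL hG.fin he (F := cfc G1 G2 bp k) (bd k) (fun u => neg_right hG u k) v ξ ξ
  have h2 := (Complex.continuous_re.tendsto _).comp h1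
  rw [Complex.zero_re] at h2
  refine h2.congr fun w => ?_
  rw [Function.comp_apply, Complex.sub_re, ek, mc_sq h.fn (bd f), mc_sq h.fn (bd f)]

/-- **Strong asymptotic commutation** with every `R v`, when the limit exists. -/
theorem strong_comm (hβ : IsLim mp R G1 G2 bp l β) (h : SysF mp R Bd ms A G1 G2)
    (hL : Loc2 mp R Bd Bf) (hG : GeoF G1 G2 bp) (he : Esc (st mp) R Bd A l) (h1 : R 1 = 1)
    (f : C(Y, ℂ)) (v : D) (ξ : K) :
    Tendsto (fun w => ‖mc mp (cfc G1 G2 bp f) (R v (R w ξ)) -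
      R v (mc mp (cfc G1 G2 bp f) (R w ξ))‖) l (𝓝 0) := by
  have hRe := h.sys.rep
  have bd : ∀ g, ‖cfc G1 G2 bp f g‖ ≤ ‖f‖ := cfc_norm fun y => f.norm_coe_le_norm y
  obtain ⟨M, hM⟩ : ∃ M, M = mc mp (cfc G1 G2 bp f) := ⟨_, rfl⟩
  obtain ⟨ρ, hρ⟩ : ∃ ρ, ρ = β f ξ := ⟨_, rfl⟩
  have hiso : ∀ w x, ‖R w x‖ = ‖x‖ := fun w x => by rw [hRe.norm_eq, h1]; rfl
  have hinv : ∀ w x, R w (R w⁻¹ x) = x := fun w x => by
    rw [← mul_ap', ← hRe.mul, mul_inv_cancel, h1]; rfl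
  -- `M R w ξ` is close to `R w ρ`
  have c1 : Tendsto (fun w => ‖M (R w ξ) - R w ρ‖) l (𝓝 0) := by
    have h2 := (hβ f ξ).sub_const (β f ξ)
    rw [sub_self] at h2
    have h3 := h2.norm
    rw [norm_zero] at h3
    refine h3.congr fun w => ?_
    rw [← hiso w (PC mp R w (cfc G1 G2 bp f) ξ - β f ξ), map_sub, PC_ap, hinv, ← hM, ← hρ]
  have c2 : Tendsto (fun w => ⟪ρ, PC mp R w (cfc G1 G2 bp f) ξ⟫_ℂ) l (𝓝 ⟪ρ, ρ⟫_ℂ) := by
    have h2 := (tendsto_const_nhds (x := ρ)).inner (𝕜 := ℂ) (hβ f ξ)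
    rwa [← hρ] at h2
  have c3 : Tendsto (fun w => ⟪R v (R w ρ), M (R v (R w ξ))⟫_ℂ) l (𝓝 ⟪ρ, ρ⟫_ℂ) := by
    have h2 := (lu2 h hL hG.fin he bd (fun u => neg_right hG u f) v ξ ρ).add c2
    rw [zero_add] at h2
    refine h2.congr fun w => ?_
    rw [← hM, PC_ap, ← hM, hRe.inner_right, inv_inv, sub_add_cancel]
  have c4 : Tendsto (fun w => ‖M (R w ξ)‖) l (𝓝 ‖ρ‖) := by
    have h2 := (hβ f ξ).norm
    rw [← hρ] at h2
    refine h2.congr fun w => ?_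
    rw [PC_ap, hiso, ← hM]
  have c5 : Tendsto (fun w => ‖M (R v (R w ξ))‖ ^ 2) l (𝓝 (‖ρ‖ ^ 2)) := by
    have h2 := (norm_shift h hL hG he f v ξ).add (c4.pow 2)
    rw [zero_add] at h2
    refine h2.congr fun w => ?_
    rw [← hM, sub_add_cancel]
  have c6 : Tendsto (fun w => ‖M (R v (R w ξ)) - R v (R w ρ)‖ ^ 2) l (𝓝 0) := by
    have h2 := (c5.sub (((Complex.continuous_re.tendsto _).comp c3).const_mul 2)).add
      (tendsto_const_nhds (x := ‖ρ‖ ^ 2))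
    have h3 : ‖ρ‖ ^ 2 - 2 * (⟪ρ, ρ⟫_ℂ).re + ‖ρ‖ ^ 2 = 0 := by
      rw [inner_self_eq_norm_sq_to_K]
      have : (((‖ρ‖ : ℂ)) ^ 2).re = ‖ρ‖ ^ 2 := by norm_cast
      change ‖ρ‖ ^ 2 - 2 * (((‖ρ‖ : ℂ)) ^ 2).re + ‖ρ‖ ^ 2 = 0
      rw [this]
      ring
    rw [h3] at h2
    refine h2.congr fun w => ?_
    have h4 := @norm_sub_sq ℂ K _ _ _ (M (R v (R w ξ))) (R v (R w ρ))
    rw [h4, hiso v, hiso w, ← inner_conj_symm]
    simp only [Function.comp_apply, RCLike.re_to_complex, Complex.conj_re]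
  have c7 : Tendsto (fun w => ‖M (R v (R w ξ)) - R v (R w ρ)‖) l (𝓝 0) := by
    have h2 := (Real.continuous_sqrt.tendsto 0).comp c6
    rw [Real.sqrt_zero] at h2
    refine h2.congr fun w => ?_
    rw [Function.comp_apply, Real.sqrt_sq (norm_nonneg _)]
  have c8 := c7.add c1
  rw [add_zero] at c8
  rw [← hM]
  refine squeeze_zero (fun w => norm_nonneg _) (fun w => ?_) c8
  have e1 : M (R v (R w ξ)) - R v (M (R w ξ)) =
      (M (R v (R w ξ)) - R v (R w ρ)) - R v (M (R w ξ) - R w ρ) := by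
    rw [map_sub]; abel
  rw [e1]
  refine (norm_sub_le _ _).trans ?_
  rw [hiso v]

end full

end Vale.Agent.P092.H43
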