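import Vale.Agent.P092.H859.CNA
import Vale.Agent.P092.H43.LocUse

/-!
P092 (helper43), block D0-COM, part 5: use of locality, in the letters of the general engine
(H859/CNA, regular sets independent of the gap functions), and in an abstract form.
-/

set_option linter.all false

open scoped InnerProductSpace
open Filter Topology ContinuousLinearMap

namespace Vale.Agent.P092.H43.N

open Vale.Agent.P092.H859.CL (Prj Rep Fn st mc PC cfc Neg Leg FF Esc mul_ap' bform_of_total mc_mul_ap mc_sq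
  mc_norm PC_ap cfc_norm IsLim)
open Vale.Agent.P092.H43 (Loc2 key_le mul_norm_le)

variable {Γ D K Y : Type} [Group Γ] [Group D] [NormedAddCommGroup K] [InnerProductSpace ℂ K]
  [CompleteSpace K] {mp : (Γ → ℝ) → (K →L[ℂ] K)} {R : D → (K →L[ℂ] K)} {Bd Bf : Set K}
  {ms : D → Set Γ → ℝ} {A : Subgroup D} {Br : ℝ → Set Γ} {G1 G2 : Γ → ℝ} {bp : Γ → Y}
  {l : Filter D} {C : ℝ}

/-- **Weak asymptotic commutation**, abstract form: the only input is that the differences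
`F (g u) - F g` are negligible on the vectors `R w ξ`. -/
theorem lu_abs (hf : Fn mp) (hR : Rep R) (hL : Loc2 mp R Bd Bf) (hn : ∀ ζ ∈ Bf, ‖ζ‖ ≤ 1)
    {F : Γ → ℂ} (hF : ∀ g, ‖F g‖ ≤ C)
    (hz : ∀ u, ∀ ξ ∈ Bf, Tendsto (fun w => mc mp (fun g => F (g * u) - F g) (R w ξ)) l (𝓝 0))
    (v : D) {Q : D → (K →L[ℂ] K)} (hQ : ∀ w, ∀ ζ ∈ Bf, Q w ζ ∈ Bf) (hQn : ∀ w, ‖Q w‖ ≤ 1)
    (ξ η : K) :
    Tendsto (fun w => ⟪Q w η, (mc mp F * R v - R v * mc mp F) (R w ξ)⟫_ℂ) l (𝓝 0) := by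
  obtain ⟨T, hT⟩ : ∃ T, T = mc mp F * R v - R v * mc mp F := ⟨_, rfl⟩
  rw [← hT]
  refine bform_of_total (B := fun w x y => ⟪Q w x, T (R w y)⟫_ℂ) (C := ‖T‖) (norm_nonneg _)
    (fun w x y => ?_) (fun w x x' y => ?_) (fun w x y y' => ?_) (fun w c x y => ?_)
    (fun w c x y => ?_) hL.dense (fun η hη ξ hξ => ?_) η ξ
  · have h1 : ‖Q w x‖ ≤ ‖x‖ := ((Q w).le_opNorm x).trans
      (mul_le_of_le_one_left (norm_nonneg _) (hQn w))
    have h2 : ‖T (R w y)‖ ≤ ‖T‖ * ‖y‖ := (T.le_opNorm _).trans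
      (mul_le_mul_of_nonneg_left (hR.norm_le w y) (norm_nonneg _))
    calc _ ≤ ‖Q w x‖ * ‖T (R w y)‖ := norm_inner_le_norm _ _
      _ ≤ ‖x‖ * (‖T‖ * ‖y‖) := by gcongr
      _ = ‖T‖ * ‖x‖ * ‖y‖ := by ring
  · simp only [map_add, inner_add_left]
  · simp only [map_add, inner_add_right]
  · simp only [map_smul, inner_smul_left, norm_mul, RCLike.norm_conj]
  · simp only [map_smul, inner_smul_right, norm_mul]
  · obtain ⟨C', hC'⟩ : ∃ C' : ℝ, C' = |C| + 1 := ⟨_, rfl⟩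
    have hC0 : 0 < C' := by rw [hC']; positivity
    have hF' : ∀ g, ‖F g‖ ≤ C' := fun g => by
      rw [hC']
      have := hF g
      have := le_abs_self C
      linarith
    rw [Metric.tendsto_nhds]
    intro δ hδ
    obtain ⟨S, N, hN0, hk⟩ := key_le hf hL hn v (ε := δ / (2 * C')) (by positivity)
    have h1 : ∀ u, Tendsto (fun w => ‖mc mp (fun g => F (g * u) - F g) (R w ξ)‖) l (𝓝 0) := by
      intro u
      have h2 := (hz u ξ hξ).norm
      rwa [norm_zero] at h2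
    have h2 : Tendsto (fun w => N * ∑ u ∈ S, ‖mc mp (fun g => F (g * u) - F g) (R w ξ)‖) l
        (𝓝 0) := by
      have h3 := (tendsto_finsetSum S fun u _ => h1 u).const_mul N
      rwa [Finset.sum_const_zero, mul_zero] at h3
    filter_upwards [(Metric.tendsto_nhds.mp h2) (δ / 2) (by positivity)] with w hw
    rw [dist_zero_right, Real.norm_eq_abs] at hw
    rw [dist_zero_right]
    have h4 := hk C' hC0 F hF' (R w ξ) (hL.map w ξ hξ) (Q w η) (hQ w η hη)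
    rw [← hT] at h4
    have h5 : C' * (δ / (2 * C')) = δ / 2 := by field_simp
    rw [h5] at h4
    have h6 := (abs_lt.mp hw).2
    linarith

/-- **Weak asymptotic commutation**, with an arbitrary family `Q w` preserving `Bf`. -/
theorem lu_gen (h : Vale.Agent.P092.H859.CN.SysF mp R Bd ms A Br G1 G2) (hL : Loc2 mp R Bd Bf)
    (hfin : ∀ r, (FF G1 G2 r).Finite) (he : Esc (st mp) R Bd A l) {F : Γ → ℂ}
    (hF : ∀ g, ‖F g‖ ≤ C) (hN : ∀ u, Neg G1 G2 fun g => F (g * u) - F g) (v : D)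
    {Q : D → (K →L[ℂ] K)} (hQ : ∀ w, ∀ ζ ∈ Bf, Q w ζ ∈ Bf) (hQn : ∀ w, ‖Q w‖ ≤ 1) (ξ η : K) :
    Tendsto (fun w => ⟪Q w η, (mc mp F * R v - R v * mc mp F) (R w ξ)⟫_ℂ) l (𝓝 0) := by
  refine lu_abs h.fn h.sys.rep hL (fun ζ hζ => h.sys.norm ζ (hL.sub hζ)) hF (fun u ξ _ => ?_) v hQ
    hQn ξ η
  have hb : ∀ g, ‖F (g * u) - F g‖ ≤ C + C := fun g =>
    (norm_sub_le _ _).trans (add_le_add (hF _) (hF _))
  exact H859.CN.negl_fn h hfin he hb (hN u) ξ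

/-- **(LU1)** (the property `LU` of helper76). -/
theorem lu1 (h : Vale.Agent.P092.H859.CN.SysF mp R Bd ms A Br G1 G2) (hL : Loc2 mp R Bd Bf)
    (hfin : ∀ r, (FF G1 G2 r).Finite) (he : Esc (st mp) R Bd A l) (F : Γ → ℂ) (C : ℝ)
    (hF : ∀ g, ‖F g‖ ≤ C) (hN : ∀ u, Neg G1 G2 fun g => F (g * u) - F g) (v : D) (ξ η : K) :
    Tendsto (fun w => ⟪R w η, (R v * mc mp F - mc mp F * R v) (R w ξ)⟫_ℂ) l (𝓝 0) := by
  have h1 := (lu_gen h hL hfin he hF hN v (Q := R) (fun w ζ hζ => hL.map w ζ hζ)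
    (fun w => h.sys.rep.opNorm_le w) ξ η).neg
  rw [neg_zero] at h1
  refine h1.congr fun w => ?_
  rw [← inner_neg_right, ← ContinuousLinearMap.neg_apply, neg_sub]

/-- The property `LU1` of helper859, general engine. -/
theorem lu1_cn (h : Vale.Agent.P092.H859.CN.SysF mp R Bd ms A Br G1 G2) (hL : Loc2 mp R Bd Bf)
    (hfin : ∀ r, (FF G1 G2 r).Finite) (he : Esc (st mp) R Bd A l) :
    H859.CL.LU1 mp R G1 G2 l := fun F C hF hN v ξ η => lu1 h hL hfin he F C hF hN v ξ η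

/-- The property `LU1` of helper859. -/
theorem lu1_cl (h : H859.CL.SysF mp R Bd ms A G1 G2) (hL : Loc2 mp R Bd Bf)
    (hfin : ∀ r, (FF G1 G2 r).Finite) (he : Esc (st mp) R Bd A l) :
    H859.CL.LU1 mp R G1 G2 l := fun F C hF hN v ξ η =>
  Vale.Agent.P092.H43.lu1 h hL hfin he F C hF hN v ξ η

/-- **(LU2)** -/
theorem lu2 (h : Vale.Agent.P092.H859.CN.SysF mp R Bd ms A Br G1 G2) (hL : Loc2 mp R Bd Bf)
    (hfin : ∀ r, (FF G1 G2 r).Finite) (he : Esc (st mp) R Bd A l) {F : Γ → ℂ}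
    (hF : ∀ g, ‖F g‖ ≤ C) (hN : ∀ u, Neg G1 G2 fun g => F (g * u) - F g) (v : D) (ξ η : K) :
    Tendsto (fun w => ⟪R v (R w η), mc mp F (R v (R w ξ))⟫_ℂ - ⟪R w η, mc mp F (R w ξ)⟫_ℂ) l
      (𝓝 0) := by
  have h1 := lu_gen h hL hfin he hF hN v (Q := fun w => R v * R w)
    (fun w ζ hζ => hL.map v _ (hL.map w ζ hζ)) (fun w => mul_norm_le h.sys.rep v w) ξ η
  refine h1.congr fun w => ?_
  have h2 : ⟪R v (R w η), R v (mc mp F (R w ξ))⟫_ℂ = ⟪R w η, mc mp F (R w ξ)⟫_ℂ := by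
    rw [h.sys.rep.inner_right]
    congr 1
    rw [← mul_ap', ← mul_ap', ← h.sys.rep.mul, ← h.sys.rep.mul, inv_mul_cancel, one_mul]
  change ⟪R v (R w η), mc mp F (R v (R w ξ)) - R v (mc mp F (R w ξ))⟫_ℂ = _
  rw [inner_sub_right, h2]

/-- The property `LU2` of helper142, general engine. -/
theorem lu2_cn (h : Vale.Agent.P092.H859.CN.SysF mp R Bd ms A Br G1 G2) (hL : Loc2 mp R Bd Bf)
    (hfin : ∀ r, (FF G1 G2 r).Finite) (he : Esc (st mp) R Bd A l) (F : Γ → ℂ) (C : ℝ)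
    (hF : ∀ g, ‖F g‖ ≤ C) (hN : ∀ u, Neg G1 G2 fun g => F (g * u) - F g) (v : D) (ξ η : K) :
    Tendsto (fun w => ⟪R v (R w η), mc mp F (R v (R w ξ))⟫_ℂ - ⟪R w η, mc mp F (R w ξ)⟫_ℂ) l
      (𝓝 0) := lu2 h hL hfin he hF hN v ξ η

/-- The property `LU2` of helper142. -/
theorem lu2_cl (h : H859.CL.SysF mp R Bd ms A G1 G2) (hL : Loc2 mp R Bd Bf)
    (hfin : ∀ r, (FF G1 G2 r).Finite) (he : Esc (st mp) R Bd A l) (F : Γ → ℂ) (C : ℝ)
    (hF : ∀ g, ‖F g‖ ≤ C) (hN : ∀ u, Neg G1 G2 fun g => F (g * u) - F g) (v : D) (ξ η : K) :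
    Tendsto (fun w => ⟪R v (R w η), mc mp F (R v (R w ξ))⟫_ℂ - ⟪R w η, mc mp F (R w ξ)⟫_ℂ) l
      (𝓝 0) := Vale.Agent.P092.H43.lu2 h hL hfin he hF hN v ξ η

/-- Elements which commute with the elements of the filter commute weakly asymptotically with the
conjugated multiplication operators. -/
theorem lu_comm (h : Vale.Agent.P092.H859.CN.SysF mp R Bd ms A Br G1 G2) (hL : Loc2 mp R Bd Bf)
    (hfin : ∀ r, (FF G1 G2 r).Finite) (he : Esc (st mp) R Bd A l) {F : Γ → ℂ}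
    (hF : ∀ g, ‖F g‖ ≤ C) (hN : ∀ u, Neg G1 G2 fun g => F (g * u) - F g) {v : D}
    (hv : ∀ᶠ w in l, v * w = w * v) (ξ η : K) :
    Tendsto (fun w => ⟪η, (R v * PC mp R w F - PC mp R w F * R v) ξ⟫_ℂ) l (𝓝 0) := by
  refine (lu1 h hL hfin he F C hF hN v ξ η).congr' ?_
  filter_upwards [hv] with w hw
  have e1 : R v * R w⁻¹ = R w⁻¹ * R v := by
    rw [← h.sys.rep.mul, ← h.sys.rep.mul]
    congr 1
    rw [mul_inv_eq_iff_eq_mul, mul_assoc, hw, inv_mul_cancel_left]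
  have e2 : R w * R v = R v * R w := by rw [← h.sys.rep.mul, ← h.sys.rep.mul, hw]
  have e3 : R v * PC mp R w F - PC mp R w F * R v =
      R w⁻¹ * ((R v * mc mp F - mc mp F * R v) * R w) := by
    rw [PC, mul_assoc (R w⁻¹ * mc mp F), e2]
    calc R v * (R w⁻¹ * mc mp F * R w) - R w⁻¹ * mc mp F * (R v * R w)
        = (R v * R w⁻¹) * mc mp F * R w - R w⁻¹ * mc mp F * R v * R w := by
          simp only [mul_assoc]
      _ = _ := by
          rw [e1, sub_mul, mul_sub]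
          simp only [mul_assoc]
  rw [e3]
  change ⟪R w η, (R v * mc mp F - mc mp F * R v) (R w ξ)⟫_ℂ =
    ⟪η, R w⁻¹ ((R v * mc mp F - mc mp F * R v) (R w ξ))⟫_ℂ
  rw [h.sys.rep.inner_left]

section full

variable [TopologicalSpace Y] [CompactSpace Y] [MulAction Γ Y]
  {β : C(Y, ℂ) →⋆ₐ[ℂ] (K →L[ℂ] K)}

/-- The limit commutes exactly with the elements commuting with the elements of the filter. -/
theorem comm_of [l.NeBot] (hβ : IsLim mp R G1 G2 bp l β) (h : Vale.Agent.P092.H859.CN.SysF mp R Bd ms A Br G1 G2)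
    (hL : Loc2 mp R Bd Bf) (hG : Vale.Agent.P092.H859.CN.GeoF Br G1 G2 bp) (he : Esc (st mp) R Bd A l) {v : D}
    (hv : ∀ᶠ w in l, v * w = w * v) (f : C(Y, ℂ)) : R v * β f = β f * R v :=
  hβ.comm_weak fun ξ η => lu_comm h hL hG.fin he (F := cfc G1 G2 bp f)
    (cfc_norm fun y => f.norm_coe_le_norm y) (fun u => H859.CN.neg_right hG u f) hv ξ η

/-- The norms after an additional `R v`. -/
theorem norm_shift (h : Vale.Agent.P092.H859.CN.SysF mp R Bd ms A Br G1 G2) (hL : Loc2 mp R Bd Bf)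
    (hG : Vale.Agent.P092.H859.CN.GeoF Br G1 G2 bp) (he : Esc (st mp) R Bd A l) (f : C(Y, ℂ)) (v : D) (ξ : K) :
    Tendsto (fun w => ‖mc mp (cfc G1 G2 bp f) (R v (R w ξ))‖ ^ 2 -
      ‖mc mp (cfc G1 G2 bp f) (R w ξ)‖ ^ 2) l (𝓝 0) := by
  obtain ⟨k, hk⟩ : ∃ k : C(Y, ℂ), k = star f * f := ⟨_, rfl⟩
  have ek : cfc G1 G2 bp k = fun g => (starRingEnd ℂ) (cfc G1 G2 bp f g) * cfc G1 G2 bp f g := by
    have e0 : (k : Y → ℂ) = fun y => (starRingEnd ℂ) (f y) * f y := by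
      rw [hk]; rfl
    rw [e0, H859.CL.cfc_mul, H859.CL.cfc_conj]
  have bd : ∀ f : C(Y, ℂ), ∀ g, ‖cfc G1 G2 bp f g‖ ≤ ‖f‖ := fun f =>
    cfc_norm fun y => f.norm_coe_le_norm y
  have h1 := lu2 h hL hG.fin he (F := cfc G1 G2 bp k) (bd k) (fun u => H859.CN.neg_right hG u k) v ξ ξ
  have h2 := (Complex.continuous_re.tendsto _).comp h1
  rw [Complex.zero_re] at h2
  refine h2.congr fun w => ?_
  rw [Function.comp_apply, Complex.sub_re, ek, mc_sq h.fn (bd f), mc_sq h.fn (bd f)]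

/-- **Strong asymptotic commutation** with every `R v`, when the limit exists. -/
theorem strong_comm (hβ : IsLim mp R G1 G2 bp l β) (h : Vale.Agent.P092.H859.CN.SysF mp R Bd ms A Br G1 G2)
    (hL : Loc2 mp R Bd Bf) (hG : Vale.Agent.P092.H859.CN.GeoF Br G1 G2 bp) (he : Esc (st mp) R Bd A l) (h1 : R 1 = 1)
    (f : C(Y, ℂ)) (v : D) (ξ : K) :
    Tendsto (fun w => ‖mc mp (cfc G1 G2 bp f) (R v (R w ξ)) -
      R v (mc mp (cfc G1 G2 bp f) (R w ξ))‖) l (𝓝 0) := by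
  have hRe := h.sys.rep
  have bd : ∀ g, ‖cfc G1 G2 bp f g‖ ≤ ‖f‖ := cfc_norm fun y => f.norm_coe_le_norm y
  obtain ⟨M, hM⟩ : ∃ M, M = mc mp (cfc G1 G2 bp f) := ⟨_, rfl⟩
  obtain ⟨ρ, hρ⟩ : ∃ ρ, ρ = β f ξ := ⟨_, rfl⟩
  have hiso : ∀ w x, ‖R w x‖ = ‖x‖ := fun w x => by rw [hRe.norm_eq, h1]; rfl
  have hinv : ∀ w x, R w (R w⁻¹ x) = x := fun w x => by
    rw [← mul_ap', ← hRe.mul, mul_inv_cancel, h1]; rfl
  -- `M R w ξ` is close to `R w ρ`
  have c1 : Tendsto (fun w => ‖M (R w ξ) - R w ρ‖) l (𝓝 0) := by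
    have h2 := (hβ f ξ).sub_const (β f ξ)
    rw [sub_self] at h2
    have h3 := h2.norm
    rw [norm_zero] at h3
    refine h3.congr fun w => ?_
    rw [← hiso w (PC mp R w (cfc G1 G2 bp f) ξ - β f ξ), map_sub, PC_ap, hinv, ← hM, ← hρ]
  have c2 : Tendsto (fun w => ⟪ρ, PC mp R w (cfc G1 G2 bp f) ξ⟫_ℂ) l (𝓝 ⟪ρ, ρ⟫_ℂ) := by
    have h2 := (tendsto_const_nhds (x := ρ)).inner (𝕜 := ℂ) (hβ f ξ)
    rwa [← hρ] at h2
  have c3 : Tendsto (fun w => ⟪R v (R w ρ), M (R v (R w ξ))⟫_ℂ) l (𝓝 ⟪ρ, ρ⟫_ℂ) := by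
    have h2 := (lu2 h hL hG.fin he bd (fun u => H859.CN.neg_right hG u f) v ξ ρ).add c2
    rw [zero_add] at h2
    refine h2.congr fun w => ?_
    rw [← hM, PC_ap, ← hM, hRe.inner_right, inv_inv, sub_add_cancel]
  have c4 : Tendsto (fun w => ‖M (R w ξ)‖) l (𝓝 ‖ρ‖) := by
    have h2 := (hβ f ξ).norm
    rw [← hρ] at h2
    refine h2.congr fun w => ?_
    rw [PC_ap, hiso, ← hM]
  have c5 : Tendsto (fun w => ‖M (R v (R w ξ))‖ ^ 2) l (𝓝 (‖ρ‖ ^ 2)) := by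
    have h2 := (norm_shift h hL hG he f v ξ).add (c4.pow 2)
    rw [zero_add] at h2
    refine h2.congr fun w => ?_
    rw [← hM, sub_add_cancel]
  have c6 : Tendsto (fun w => ‖M (R v (R w ξ)) - R v (R w ρ)‖ ^ 2) l (𝓝 0) := by
    have h2 := (c5.sub (((Complex.continuous_re.tendsto _).comp c3).const_mul 2)).add
      (tendsto_const_nhds (x := ‖ρ‖ ^ 2))
    have h3 : ‖ρ‖ ^ 2 - 2 * (⟪ρ, ρ⟫_ℂ).re + ‖ρ‖ ^ 2 = 0 := by
      rw [inner_self_eq_norm_sq_to_K]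
      have : (((‖ρ‖ : ℂ)) ^ 2).re = ‖ρ‖ ^ 2 := by norm_cast
      change ‖ρ‖ ^ 2 - 2 * (((‖ρ‖ : ℂ)) ^ 2).re + ‖ρ‖ ^ 2 = 0
      rw [this]
      ring
    rw [h3] at h2
    refine h2.congr fun w => ?_
    have h4 := @norm_sub_sq ℂ K _ _ _ (M (R v (R w ξ))) (R v (R w ρ))
    rw [h4, hiso v, hiso w, ← inner_conj_symm]
    simp only [Function.comp_apply, RCLike.re_to_complex, Complex.conj_re]
  have c7 : Tendsto (fun w => ‖M (R v (R w ξ)) - R v (R w ρ)‖) l (𝓝 0) := by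
    have h2 := (Real.continuous_sqrt.tendsto 0).comp c6
    rw [Real.sqrt_zero] at h2
    refine h2.congr fun w => ?_
    rw [Function.comp_apply, Real.sqrt_sq (norm_nonneg _)]
  have c8 := c7.add c1
  rw [add_zero] at c8
  rw [← hM]
  refine squeeze_zero (fun w => norm_nonneg _) (fun w => ?_) c8
  have e1 : M (R v (R w ξ)) - R v (M (R w ξ)) =
      (M (R v (R w ξ)) - R v (R w ρ)) - R v (M (R w ξ) - R w ρ) := by
    rw [map_sub]; abel
  rw [e1]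
  refine (norm_sub_le _ _).trans ?_
  rw [hiso v]

end full

end Vale.Agent.P092.H43.N
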