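import Vale.Agent.P092.H43.Loc

/-!
P092 (helper43), block D0-COM, part 3: locality on the picture, the instances.
-/

set_option linter.all false

open scoped InnerProductSpace ENNReal
open MeasureTheory Filter Topology ContinuousLinearMap

namespace Vale.Agent.P092.H43

open Vale.Agent.P092.H790 (CData Ri baseL fld_comp ae_comp ri_ae RAt lxt mpt ept ept_ae ind_ae
  xf kp kp_ae fld_xf)
open Vale.Agent.P092.H160 Vale.Agent.P092.H553 Vale.Agent.P092.H432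
open Vale.Agent.P092.H538 (fst fst_mp)

/-- Left bounded vectors are left bounded for the second group (the `B2` of helper357). -/
theorem LB.b2 {Γ Q ι : Type} [Group Γ] [Group Q] {v : Ell2 ((Γ × Q) × ι)} (h : LB v) :
    ∃ C : Ell2 Q →L[ℂ] Ell2 ((Γ × Q) × ι), ‖C‖ ≤ 1 ∧
      ∀ q, C (H160.dl q) = lx ((1, q) : Γ × Q) v := by
  classical
  have hb : Bes 1 (fun q : Q => lx ((1, q) : Γ × Q) v) := by
    intro s w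
    have h1 := h (s.image fun q : Q => ((1, q) : Γ × Q)) w
    rw [Finset.sum_image] at h1
    · exact h1
    · intro a _ b _ hab
      simpa using hab
  refine ⟨opOf hb, ?_, fun q => opOf_dl hb q⟩
  have := norm_opOf_le hb
  rwa [abs_one] at this

section pic

variable {D Λ : Type} [Group D] [Group Λ] [Countable Λ] (d : CData D Λ)
  {Γ Γ₂ ι : Type} [Group Γ] [Group Γ₂] [Countable Γ] [Countable Γ₂] [Fintype ι] {t : ℝ}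

theorem mp_kp (F : Γ × Γ₂ → ℝ) (v : D) : mpt d.μ ι F * kp d _ v = kp d _ v * mpt d.μ ι F :=
  (H790.kp_comp d v (mp ι F)).symm

theorem adj_kp_norm (v : D) (ζ : Lp (Ell2 (Γ × ι)) 2 d.μ) : ‖adjoint (kp d _ v) ζ‖ = ‖ζ‖ := by
  rw [H790.adjoint_kp]
  exact H790.norm_koo _ _ _

/-- Approximation of `xf`, leg 1 with coefficients. -/
theorem appr_fst {R : Λ → (Ell2 ((Γ × Γ₂) × ι) →L[ℂ] Ell2 ((Γ × Γ₂) × ι))} (hR : ARep t R)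
    (v : D) {ε : ℝ} (hε : 0 < ε) :
    ∃ (n : ℕ) (Z : Fin n → (Lp (Ell2 ((Γ × Γ₂) × ι)) 2 d.μ →L[ℂ] Lp (Ell2 ((Γ × Γ₂) × ι)) 2 d.μ))
      (u : Fin n → Γ), RAt d.μ (xf d R v - ∑ j, Z j) ∧
      (∀ j, ∀ F : Γ → ℝ, (∀ g, |F g| ≤ 1) → mpt d.μ ι (fun x : Γ × Γ₂ => F x.1) * Z j =
        Z j * mpt d.μ ι (fun x : Γ × Γ₂ => F (x.1 * u j))) ∧
      ∑ i, ‖(xf d R v - ∑ j, Z j) (ept d.μ i)‖ ^ 2 ≤ ε ^ 2 := by
  have h0 : RAt d.μ (xf d R v) := (H790.ra_iff d.μ).1 (H790.ra_xf d hR v)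
  obtain ⟨Y, ⟨n, Z, u, h1, h2, rfl⟩, h3⟩ := H790.exists_ap (xf d R v) (ε := ε ^ 2) (by positivity)
  exact ⟨n, Z, fun j => (u j).1, rat_sub h0 h1,
    fun j F hF => h2 j (F := fun x : Γ × Γ₂ => F x.1) (C := 1) (fun x => hF x.1), h3⟩

/-- Approximation of `xf`. -/
theorem appr_row {R : Λ → (Ell2 (Γ × ι) →L[ℂ] Ell2 (Γ × ι))} (hR : ARep t R)
    (v : D) {ε : ℝ} (hε : 0 < ε) :
    ∃ (n : ℕ) (Z : Fin n → (Lp (Ell2 (Γ × ι)) 2 d.μ →L[ℂ] Lp (Ell2 (Γ × ι)) 2 d.μ))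
      (u : Fin n → Γ), RAt d.μ (xf d R v - ∑ j, Z j) ∧
      (∀ j, ∀ F : Γ → ℝ, (∀ g, |F g| ≤ 1) → mpt d.μ ι F * Z j =
        Z j * mpt d.μ ι (fun x => F (x * u j))) ∧
      ∑ i, ‖(xf d R v - ∑ j, Z j) (ept d.μ i)‖ ^ 2 ≤ ε ^ 2 := by
  have h0 : RAt d.μ (xf d R v) := (H790.ra_iff d.μ).1 (H790.ra_xf d hR v)
  obtain ⟨Y, ⟨n, Z, u, h1, h2, rfl⟩, h3⟩ := H790.exists_ap (xf d R v) (ε := ε ^ 2) (by positivity)
  exact ⟨n, Z, u, rat_sub h0 h1, fun j F hF => h2 j (C := 1) hF, h3⟩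

theorem loc_fst {R : Λ → (Ell2 ((Γ × Γ₂) × ι) →L[ℂ] Ell2 ((Γ × Γ₂) × ι))} (hR : ARep t R)
    (v : D) {ε : ℝ} (hε : 0 < ε) :
    ∃ (S : Finset Γ) (X : Γ → (Lp (Ell2 ((Γ × Γ₂) × ι)) 2 d.μ →L[ℂ] Lp (Ell2 ((Γ × Γ₂) × ι)) 2 d.μ)),
    (∀ u ∈ S, ∀ F : Γ → ℝ, (∀ g, |F g| ≤ 1) → mpt d.μ ι (fun x : Γ × Γ₂ => F x.1) * X u =
      X u * mpt d.μ ι (fun x : Γ × Γ₂ => F (x.1 * u))) ∧
    ∀ ζ ∈ BfL d.μ (Γ × Γ₂) ι, ‖Ri d R v ζ - ∑ u ∈ S, X u ζ‖ ≤ ε ∧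
      ‖adjoint (Ri d R v) ζ - ∑ u ∈ S, adjoint (X u) ζ‖ ≤ ε := by
  obtain ⟨n, Z, u, hW, hsh, h3⟩ := appr_fst d hR v hε
  have e1 : Ri d R v = xf d R v * kp d _ v := rfl
  exact regroup (fun F : Γ → ℝ => mpt d.μ ι (fun x : Γ × Γ₂ => F x.1)) Z u (Ri d R v)
    (xf d R v) _ (kp d _ v) hsh (fun F hF => mp_kp d (fun x : Γ × Γ₂ => F x.1) v) e1 rfl
    (fun ζ hζ => (both_le hW hε.le h3 (bfl_kp d v hζ)).1)
    (fun ζ hζ => (adj_kp_norm d v _).le.trans (both_le hW hε.le h3 hζ).2)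

theorem loc_row {R : Λ → (Ell2 (Γ × ι) →L[ℂ] Ell2 (Γ × ι))} (hR : ARep t R)
    (v : D) {ε : ℝ} (hε : 0 < ε) :
    ∃ (S : Finset Γ) (X : Γ → (Lp (Ell2 (Γ × ι)) 2 d.μ →L[ℂ] Lp (Ell2 (Γ × ι)) 2 d.μ)),
    (∀ u ∈ S, ∀ F : Γ → ℝ, (∀ g, |F g| ≤ 1) → mpt d.μ ι F * X u =
      X u * mpt d.μ ι (fun x => F (x * u))) ∧
    ∀ ζ ∈ BfL d.μ Γ ι, ‖Ri d R v ζ - ∑ u ∈ S, X u ζ‖ ≤ ε ∧
      ‖adjoint (Ri d R v) ζ - ∑ u ∈ S, adjoint (X u) ζ‖ ≤ ε := by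
  obtain ⟨n, Z, u, hW, hsh, h3⟩ := appr_row d hR v hε
  have e1 : Ri d R v = xf d R v * kp d _ v := rfl
  exact regroup (mpt d.μ ι) Z u (Ri d R v) (xf d R v) _ (kp d _ v) hsh
    (fun F hF => (H790.kp_comp d v (mp ι F)).symm) e1 rfl
    (fun ζ hζ => (both_le hW hε.le h3 (bfl_kp d v hζ)).1)
    (fun ζ hζ => (adj_kp_norm d v _).le.trans (both_le hW hε.le h3 hζ).2)

/-- **Locality on the picture**, leg 1 with coefficients in leg 2. -/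
theorem loc2 {R : Λ → (Ell2 ((Γ × Γ₂) × ι) →L[ℂ] Ell2 ((Γ × Γ₂) × ι))} (hR : ARep t R)
    {Bd : Set (Lp (Ell2 ((Γ × Γ₂) × ι)) 2 d.μ)} (hB : BfL d.μ (Γ × Γ₂) ι ⊆ Bd) :
    Loc2 (fun F => (fst (baseL d.μ (Γ × Γ₂) ι)).mp F) (Ri d R) Bd (BfL d.μ (Γ × Γ₂) ι) where
  sub := hB
  dense := bfl_dense
  map := fun v ζ hζ => bfl_map d hR v hζ
  loc := fun v ε hε => loc_fst d hR v hε

/-- Locality without coefficients. -/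
theorem loc2_row {R : Λ → (Ell2 (Γ × ι) →L[ℂ] Ell2 (Γ × ι))} (hR : ARep t R)
    {Bd : Set (Lp (Ell2 (Γ × ι)) 2 d.μ)} (hB : BfL d.μ Γ ι ⊆ Bd) :
    Loc2 (fun F => (baseL d.μ Γ ι).mp F) (Ri d R) Bd (BfL d.μ Γ ι) where
  sub := hB
  dense := bfl_dense
  map := fun v ζ hζ => bfl_map d hR v hζ
  loc := fun v ε hε => loc_row d hR v hε

end pic

end Vale.Agent.P092.H43
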