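import Vale.Agent.P092.H859.CLD
import Vale.Agent.P092.H538.Fst
import Vale.Agent.P092.H790.BaseI
import Vale.Agent.P092.H103.Lat

/-!
P092 (helper43), block D0-COM, part 1: slow variation on the picture `L²(X; 𝓗)`.  Elements `h` of
the acting group near `1` have a trivial cocycle on a large set, hence `Ri d R h` almost commutes
with every constant field, uniformly on the fields of norm at most one.
-/

set_option linter.all false

open scoped InnerProductSpace ENNReal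
open MeasureTheory Filter Topology ContinuousLinearMap

namespace Vale.Agent.P092.H43

open Vale.Agent.P092.H790 (CData Ri baseL fld_comp ae_comp ri_ae)
open Vale.Agent.P092.H160 Vale.Agent.P092.H553 Vale.Agent.P092.H432
open Vale.Agent.P092.H538 (fst fst_mp)

section gen

variable {X : Type*} [MeasurableSpace X] {μ : Measure X} {K : Type*} [NormedAddCommGroup K]
  [InnerProductSpace ℂ K]

/-- The norm of a vector of `L²(X; K)`. -/
theorem norm_sq_int (ξ : Lp K 2 μ) : ‖ξ‖ ^ 2 = ∫ x, ‖ξ x‖ ^ 2 ∂μ := by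
  have h1 := MeasureTheory.L2.inner_def (𝕜 := ℂ) ξ ξ
  rw [inner_self_eq_norm_sq_to_K] at h1
  have h2 : ((‖ξ‖ ^ 2 : ℝ) : ℂ) = ((∫ x, ‖ξ x‖ ^ 2 ∂μ : ℝ) : ℂ) := by
    push_cast
    refine h1.trans ?_
    rw [← integral_complex_ofReal]
    refine integral_congr_ae (Eventually.of_forall fun x => ?_)
    change ⟪ξ x, ξ x⟫_ℂ = _
    rw [inner_self_eq_norm_sq_to_K]
    push_cast
    rfl
  exact_mod_cast h2

theorem int_norm_sq (ξ : Lp K 2 μ) : Integrable (fun x => ‖ξ x‖ ^ 2) μ :=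
  (Lp.memLp ξ).integrable_norm_pow (by norm_num)

/-- A vector which is bounded by `C` on `S` and vanishes elsewhere. -/
theorem norm_sq_le_of_bdd [IsFiniteMeasure μ] {ξ : Lp K 2 μ} {S : Set X} (hS : MeasurableSet S)
    {C : ℝ} (hC : 0 ≤ C) (h : ∀ᵐ x ∂μ, ‖ξ x‖ ≤ S.indicator (fun _ => C) x) :
    ‖ξ‖ ^ 2 ≤ C ^ 2 * μ.real S := by
  rw [norm_sq_int]
  have h1 : ∫ x, ‖ξ x‖ ^ 2 ∂μ ≤ ∫ x, S.indicator (fun _ => C ^ 2) x ∂μ := by
    refine integral_mono_ae (int_norm_sq ξ) ((integrable_const _).indicator hS) ?_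
    filter_upwards [h] with x hx
    by_cases hxS : x ∈ S
    · rw [Set.indicator_of_mem hxS] at hx ⊢
      exact pow_le_pow_left₀ (norm_nonneg _) hx 2
    · rw [Set.indicator_of_notMem hxS] at hx ⊢
      have h2 : ‖ξ x‖ = 0 := le_antisymm hx (norm_nonneg _)
      rw [h2]
      norm_num
  refine h1.trans ?_
  rw [integral_indicator hS, setIntegral_const, smul_eq_mul, mul_comm]

end gen

section coc

variable {D Λ : Type} [Group D] [Group Λ]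

/-- The cocycle is continuous in measure at the neutral element. -/
def CCont [TopologicalSpace D] (d : CData D Λ) : Prop :=
  ∀ ε : ℝ, 0 < ε → ∀ᶠ h in 𝓝 (1 : D), d.μ.real {x | d.c h x ≠ 1} ≤ ε

/-- The cocycle of a lattice is continuous in measure. -/
theorem ccont_cdat {E : Type} [Group E] [TopologicalSpace E] [IsTopologicalGroup E]
    [LocallyCompactSpace E] [SecondCountableTopology E] [T2Space E] [MeasurableSpace E]
    [BorelSpace E] {Λ : Subgroup E} [DiscreteTopology Λ] [MeasurableSpace (E ⧸ Λ)]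
    [BorelSpace (E ⧸ Λ)] (ν : Measure (E ⧸ Λ)) [IsProbabilityMeasure ν]
    (hν : ∀ g : E, ν.map (fun x => g • x) = ν) : CCont (H85.cdat (Λ := Λ) ν hν) := by
  intro δ hδ
  have h1 := (ENNReal.tendsto_nhds_zero.1 (H103.coc_cont Λ ν hν)) (ENNReal.ofReal δ)
    (ENNReal.ofReal_pos.2 hδ)
  filter_upwards [h1] with g hg
  exact ENNReal.toReal_le_of_le_ofReal hδ.le hg

variable (d : CData D Λ) {K : Type} [NormedAddCommGroup K] [InnerProductSpace ℂ K]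
  {R : Λ → K →L[ℂ] K} [Countable Λ]

/-- **Slow variation, quantitative form.** -/
theorem comm_le (hb : ∀ v, ‖R v‖ ≤ 1) {M : K →L[ℂ] K} (hM : ‖M‖ ≤ 1) (hM1 : M * R 1 = R 1 * M)
    (h : D) {ζ : Lp K 2 d.μ} (hζ : ∀ᵐ x ∂d.μ, ‖ζ x‖ ≤ 1) :
    ‖Ri d R h (M.compLpL 2 d.μ ζ) - M.compLpL 2 d.μ (Ri d R h ζ)‖ ^ 2 ≤
      4 * d.μ.real {x | d.c h x ≠ 1} := by
  have hm : MeasurableSet {x | d.c h x ≠ 1} := (d.c_meas h 1).compl
  have hm' : MeasurableSet (d.act h⁻¹ ⁻¹' {x | d.c h x ≠ 1}) := (d.mp h⁻¹).measurable hm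
  have e1 : d.μ.real (d.act h⁻¹ ⁻¹' {x | d.c h x ≠ 1}) = d.μ.real {x | d.c h x ≠ 1} := by
    rw [Measure.real, (d.mp h⁻¹).measure_preimage hm.nullMeasurableSet]
    rfl
  have h4 : (4 : ℝ) = 2 ^ 2 := by norm_num
  rw [← e1, h4]
  refine norm_sq_le_of_bdd hm' zero_le_two ?_
  filter_upwards [Lp.coeFn_sub (Ri d R h (M.compLpL 2 d.μ ζ)) (M.compLpL 2 d.μ (Ri d R h ζ)),
    ri_ae d hb h (M.compLpL 2 d.μ ζ), fld_comp (μ := d.μ) M (Ri d R h ζ), ri_ae d hb h ζ,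
    ae_comp (d.mp h⁻¹) (fld_comp (μ := d.μ) M ζ), ae_comp (d.mp h⁻¹) hζ] with x h1 h2 h3 h5 h6 h7
  rw [h1, Pi.sub_apply, h2, h3, h5, h6]
  by_cases hx : x ∈ d.act h⁻¹ ⁻¹' {x | d.c h x ≠ 1}
  · rw [Set.indicator_of_mem hx]
    have a1 : ‖R (d.c h (d.act h⁻¹ x)) (M (ζ (d.act h⁻¹ x)))‖ ≤ 1 := by
      calc _ ≤ ‖R (d.c h (d.act h⁻¹ x))‖ * ‖M (ζ (d.act h⁻¹ x))‖ := le_opNorm _ _
        _ ≤ 1 * (‖M‖ * ‖ζ (d.act h⁻¹ x)‖) := by
            have := hb (d.c h (d.act h⁻¹ x))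
            have := M.le_opNorm (ζ (d.act h⁻¹ x))
            gcongr
        _ ≤ 1 * (1 * 1) := by gcongr
        _ = 1 := by norm_num
    have a2 : ‖M (R (d.c h (d.act h⁻¹ x)) (ζ (d.act h⁻¹ x)))‖ ≤ 1 := by
      calc _ ≤ ‖M‖ * ‖R (d.c h (d.act h⁻¹ x)) (ζ (d.act h⁻¹ x))‖ := le_opNorm _ _
        _ ≤ 1 * (‖R (d.c h (d.act h⁻¹ x))‖ * ‖ζ (d.act h⁻¹ x)‖) := by
            have := (R (d.c h (d.act h⁻¹ x))).le_opNorm (ζ (d.act h⁻¹ x))
            gcongr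
        _ ≤ 1 * (1 * 1) := by
            have := hb (d.c h (d.act h⁻¹ x))
            gcongr
        _ = 1 := by norm_num
    refine (norm_sub_le _ _).trans ?_
    linarith
  · rw [Set.indicator_of_notMem hx]
    have hx' : d.c h (d.act h⁻¹ x) = 1 := by
      simpa using hx
    have h8 := congrArg (fun T : K →L[ℂ] K => T (ζ (d.act h⁻¹ x))) hM1
    change M (R 1 (ζ (d.act h⁻¹ x))) = R 1 (M (ζ (d.act h⁻¹ x))) at h8
    rw [hx', h8, sub_self, norm_zero]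

/-- **Slow variation**: a whole family of constant fields. -/
theorem slow_fam [TopologicalSpace D] (hc : CCont d) (hb : ∀ v, ‖R v‖ ≤ 1) {ε : ℝ} (hε : 0 < ε) :
    ∀ᶠ h in 𝓝 (1 : D), ∀ M : K →L[ℂ] K, ‖M‖ ≤ 1 → M * R 1 = R 1 * M → ∀ ζ : Lp K 2 d.μ,
      (∀ᵐ x ∂d.μ, ‖ζ x‖ ≤ 1) →
      ‖Ri d R h (M.compLpL 2 d.μ ζ) - M.compLpL 2 d.μ (Ri d R h ζ)‖ ≤ ε := by
  filter_upwards [hc (ε ^ 2 / 4) (by positivity)] with h hh M hM hM1 ζ hζ
  have h1 := comm_le d hb hM hM1 h hζ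
  refine abs_le_of_sq_le_sq' ?_ hε.le |>.2
  linarith

end coc

section pic

variable {D Λ : Type} [Group D] [TopologicalSpace D] [Group Λ] [Countable Λ] (d : CData D Λ)
  {Γ Γ₂ ι : Type} [Group Γ] [Group Γ₂] [Countable Γ] [Countable Γ₂] [Fintype ι]
  {R : Λ → (Ell2 ((Γ × Γ₂) × ι) →L[ℂ] Ell2 ((Γ × Γ₂) × ι))}

/-- **Slow variation on the picture**, leg 1 with coefficients in leg 2. -/
theorem slow (hc : CCont d) (hb : ∀ v, ‖R v‖ ≤ 1) (h1 : R 1 = 1)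
    {Bd : Set (Lp (Ell2 ((Γ × Γ₂) × ι)) 2 d.μ)}
    (hB : ∀ ζ ∈ Bd, ∀ᵐ x ∂d.μ, ‖(ζ x : Ell2 ((Γ × Γ₂) × ι))‖ ≤ 1) :
    H859.CL.Slow (fun F => (fst (baseL d.μ (Γ × Γ₂) ι)).mp F) (Ri d R) Bd := by
  intro ε hε
  filter_upwards [slow_fam d hc hb hε] with h hh F hF ζ hζ
  refine hh (mp ι (fun x : Γ × Γ₂ => F x.1)) ?_ (by rw [h1, mul_one, one_mul]) ζ (hB ζ hζ)
  exact ContinuousLinearMap.opNorm_le_bound _ zero_le_one fun v =>
    norm_mp_le (ι := ι) (F := fun x : Γ × Γ₂ => F x.1) (fun x => hF x.1) v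

/-- Slow variation without coefficients. -/
theorem slow_row (hc : CCont d) {R : Λ → (Ell2 (Γ × ι) →L[ℂ] Ell2 (Γ × ι))}
    (hb : ∀ v, ‖R v‖ ≤ 1) (h1 : R 1 = 1) {Bd : Set (Lp (Ell2 (Γ × ι)) 2 d.μ)}
    (hB : ∀ ζ ∈ Bd, ∀ᵐ x ∂d.μ, ‖(ζ x : Ell2 (Γ × ι))‖ ≤ 1) :
    H859.CL.Slow (fun F => (baseL d.μ Γ ι).mp F) (Ri d R) Bd := by
  intro ε hε
  filter_upwards [slow_fam d hc hb hε] with h hh F hF ζ hζ
  refine hh (mp ι F) ?_ (by rw [h1, mul_one, one_mul]) ζ (hB ζ hζ)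
  exact ContinuousLinearMap.opNorm_le_bound _ zero_le_one fun v => norm_mp_le (ι := ι) hF v

end pic

end Vale.Agent.P092.H43
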