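import Vale.Agent.P092.SP.Defs
import Vale.Agent.P092.H370.Sp4b
import Vale.Agent.P092.H43.PPur

/-!
P092, TEAM P, row [P-PUR] (helper43 for helper306): the cells of the points and of the lines,
in the letters of SP/Defs: `opp1`, `opp2` are open symmetric relations, everybody has an opposite,
any two have a common opposite; `prx1`, `prx2`.
-/

set_option linter.all false

open scoped InnerProductSpace ENNReal LinearAlgebra.Projectivization Matrix
open Filter Topology ContinuousLinearMap MeasureTheory TopologicalSpace Set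

namespace Vale.Agent.P092.H43.PPrx

open Vale.Agent.P092.SP
open Vale.Agent.P092.SP4
open Vale.Agent.P092.RC (Cm TRN Moore GG PG YY)
open Vale.Agent.P092.H43.PPur (Prx)

section geo

variable {k : Type} [NontriviallyNormedField k]

theorem opp1_iff {x y : YY k 3} : opp1 x y ↔ ¬ prp x y := by
  constructor
  · intro h hp
    by_cases hxy : x = y
    · obtain ⟨l, -, -, hx, -⟩ := exists_two_ln x
      exact h l hx (hxy ▸ hx)
    · obtain ⟨l, hx, hy⟩ := exists_ln hxy hp
      exact h l hx hy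
  · intro h l hx hy
    exact h (prp_of_on hx hy)

theorem opp1_symm {x y : YY k 3} (h : opp1 x y) : opp1 y x := fun l hy hx => h l hx hy

theorem opp2_symm {l m : LL k} (h : opp2 l m) : opp2 m l := fun x hm hl => h x hl hm

theorem opp1_open : IsOpen {p : YY k 3 × YY k 3 | opp1 p.1 p.2} := by
  have e : {p : YY k 3 × YY k 3 | opp1 p.1 p.2} = {p : YY k 3 × YY k 3 | prp p.1 p.2}ᶜ := by
    ext p
    exact opp1_iff
  rw [e]
  exact prp_closed.isOpen_compl

theorem opp2_open [ProperSpace k] : IsOpen {p : LL k × LL k | opp2 p.1 p.2} := by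
  have h1 : IsClosed {r : YY k 3 × (LL k × LL k) | on r.1 r.2.1 ∧ on r.1 r.2.2} :=
    (on_closed.preimage (continuous_fst.prodMk (continuous_fst.comp continuous_snd))).inter
      (on_closed.preimage (continuous_fst.prodMk (continuous_snd.comp continuous_snd)))
  have h2 := isClosedMap_snd_of_compactSpace (X := YY k 3) (Y := LL k × LL k) _ h1
  have e : {p : LL k × LL k | opp2 p.1 p.2} =
      (Prod.snd '' {r : YY k 3 × (LL k × LL k) | on r.1 r.2.1 ∧ on r.1 r.2.2})ᶜ := by
    ext p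
    constructor
    · rintro h ⟨r, hr, rfl⟩
      exact h r.1 hr.1 hr.2
    · intro h x h1 h2
      exact h ⟨(x, p), ⟨h1, h2⟩, rfl⟩
  rw [e]
  exact h2.isOpen_compl

theorem all1 (y : YY k 3) : ∃ z, opp1 y z := by
  obtain ⟨z, hz⟩ := exists_not_prp y
  exact ⟨z, opp1_iff.2 hz⟩

/-- at most one line through a point off `l` meets `l` -/
theorem meet_unique {x : YY k 3} {l m n : LL k} (hx : ¬ on x l) (hm : on x m) (hn : on x n)
    (h1 : ¬ opp2 m l) (h2 : ¬ opp2 n l) : m = n := by
  unfold opp2 at h1 h2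
  push Not at h1 h2
  obtain ⟨y, hy, hyl⟩ := h1
  obtain ⟨z, hz, hzl⟩ := h2
  have h3 : y = z := foot_unique hx hyl hzl (prp_of_on hm hy) (prp_of_on hn hz)
  have h4 : x ≠ y := fun e => hx (e ▸ hyl)
  exact on_unique h4 hm hy hn (h3 ▸ hz)

theorem prp_rep_mk {x : YY k 3} {v : Fin 4 → k} (hv : v ≠ 0) :
    prp x (Projectivization.mk k v hv) ↔ om x.rep v = 0 := by
  have h := prp_mk (k := k) x.rep_nonzero hv
  rwa [Projectivization.mk_rep] at h

/-- three lines through every point -/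
theorem exists_three_ln (x : YY k 3) :
    ∃ l m n, l ≠ m ∧ l ≠ n ∧ m ≠ n ∧ on x l ∧ on x m ∧ on x n := by
  obtain ⟨c, c', h1, h2, h3, h4, h5⟩ := exists_two x
  have h5' : om c.rep c'.rep ≠ 0 := h5
  have h0 : c.rep + c'.rep ≠ 0 := by
    intro e
    have h6 : om c.rep (c.rep + c'.rep) = om c.rep c'.rep := by
      rw [om_add_right, om_self, zero_add]
    rw [e, om_zero_right] at h6
    exact h5' h6.symm
  obtain ⟨d, hd⟩ : ∃ d, d = Projectivization.mk k (c.rep + c'.rep) h0 := ⟨_, rfl⟩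
  have hxd : prp x d := by
    rw [hd, prp_rep_mk h0, om_add_right]
    have e1 : om x.rep c.rep = 0 := h1
    have e2 : om x.rep c'.rep = 0 := h2
    rw [e1, e2, add_zero]
  have hcd : ¬ prp c d := by
    rw [hd, prp_rep_mk h0, om_add_right, om_self, zero_add]
    exact h5'
  have hcd' : ¬ prp c' d := by
    rw [hd, prp_rep_mk h0, om_add_right, om_self, add_zero, om_swap]
    exact neg_ne_zero.2 h5'
  have hne : x ≠ d := fun e => hcd (e ▸ prp_symm h1)
  obtain ⟨l, hl, hcl⟩ := exists_ln h3.symm h1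
  obtain ⟨m, hm, hcm⟩ := exists_ln h4.symm h2
  obtain ⟨n, hn, hdn⟩ := exists_ln hne hxd
  exact ⟨l, m, n, fun e => h5 (prp_of_on hcl (e ▸ hcm)), fun e => hcd (prp_of_on hcl (e ▸ hdn)),
    fun e => hcd' (prp_of_on hcm (e ▸ hdn)), hl, hm, hn⟩

theorem all2 (l : LL k) : ∃ m, opp2 l m := by
  obtain ⟨x, hx⟩ := exists_not_on l
  obtain ⟨m, n, hmn, hm, hn⟩ := exists_two_ln x
  by_contra hc
  push Not at hc
  exact hmn (meet_unique hx hm hn (fun h => hc m (opp2_symm h)) (fun h => hc n (opp2_symm h)))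

/-- two vectors: a vector space is not the union of two proper subspaces -/
theorem exists_notMem (A B : Submodule k (Fin 4 → k)) (hA : ∃ v, v ∉ A) (hB : ∃ v, v ∉ B) :
    ∃ v, v ∉ A ∧ v ∉ B := by
  obtain ⟨v, hv⟩ := hA
  obtain ⟨w, hw⟩ := hB
  by_cases h1 : v ∈ B
  · by_cases h2 : w ∈ A
    · refine ⟨v + w, fun h => hv ?_, fun h => hw ?_⟩
      · have := A.sub_mem h h2
        rwa [add_sub_cancel_right] at this
      · have := B.sub_mem h h1
        rwa [add_sub_cancel_left] at this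
    · exact ⟨w, h2, hw⟩
  · exact ⟨v, hv, h1⟩

/-- the orthogonal of a vector -/
def ort (x : Fin 4 → k) : Submodule k (Fin 4 → k) where
  carrier := {y | om x y = 0}
  add_mem' := fun {a b} ha hb => by
    change om x (a + b) = 0
    rw [om_add_right, show om x a = 0 from ha, show om x b = 0 from hb, add_zero]
  zero_mem' := om_zero_right x
  smul_mem' := fun c a ha => by
    change om x (c • a) = 0
    rw [om_smul_right, show om x a = 0 from ha, mul_zero]

theorem mem_ort {x y : Fin 4 → k} : y ∈ ort x ↔ om x y = 0 := Iff.rfl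

theorem meet1 (a b : YY k 3) : ∃ y, opp1 y a ∧ opp1 y b := by
  obtain ⟨v, h1, h2⟩ := exists_notMem (ort a.rep) (ort b.rep) (om_nondeg a.rep_nonzero)
    (om_nondeg b.rep_nonzero)
  rw [mem_ort] at h1 h2
  have h0 : v ≠ 0 := fun e => h1 (by rw [e, om_zero_right])
  exact ⟨Projectivization.mk k v h0, opp1_symm (opp1_iff.2 fun h => h1 ((prp_rep_mk h0).1 h)),
    opp1_symm (opp1_iff.2 fun h => h2 ((prp_rep_mk h0).1 h))⟩

/-- a point off two lines -/
theorem exists_off (l m : LL k) : ∃ x, ¬ on x l ∧ ¬ on x m := by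
  obtain ⟨a, ha⟩ := exists_not_on l
  obtain ⟨b, hb⟩ := exists_not_on m
  obtain ⟨v, h1, h2⟩ := exists_notMem l.1.1 m.1.1 ⟨a.rep, fun h => ha (on_iff.2 h)⟩
    ⟨b.rep, fun h => hb (on_iff.2 h)⟩
  have h0 : v ≠ 0 := fun e => h1 (by rw [e]; exact Submodule.zero_mem _)
  exact ⟨Projectivization.mk k v h0, fun h => h1 ((on_mk h0).1 h), fun h => h2 ((on_mk h0).1 h)⟩

theorem meet2 (l m : LL k) : ∃ n, opp2 n l ∧ opp2 n m := by
  obtain ⟨x, hl, hm⟩ := exists_off l m
  obtain ⟨n₁, n₂, n₃, h12, h13, h23, o1, o2, o3⟩ := exists_three_ln x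
  by_contra hc
  push Not at hc
  by_cases a1 : opp2 n₁ l
  · by_cases a2 : opp2 n₂ l
    · exact h12 (meet_unique hm o1 o2 (hc _ a1) (hc _ a2))
    · by_cases a3 : opp2 n₃ l
      · exact h13 (meet_unique hm o1 o3 (hc _ a1) (hc _ a3))
      · exact h23 (meet_unique hl o2 o3 a2 a3)
  · by_cases a2 : opp2 n₂ l
    · by_cases a3 : opp2 n₃ l
      · exact h23 (meet_unique hm o2 o3 (hc _ a2) (hc _ a3))
      · exact h13 (meet_unique hl o1 o3 a1 a3)
    · exact h12 (meet_unique hl o1 o2 a1 a2)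

/-! ### Cells -/

theorem op1 (z : YY k 3) : IsOpen {y : YY k 3 | opp1 y z} :=
  opp1_open.preimage (continuous_id.prodMk continuous_const)

theorem op2 [ProperSpace k] (z : LL k) : IsOpen {y : LL k | opp2 y z} :=
  opp2_open.preimage (continuous_id.prodMk continuous_const)

/-- cells of points, from proximality -/
theorem prx1_of {Γ : Type} {q : Γ → S4 k}
    (h : ∀ (z : YY k 3) (D : Set (YY k 3)), IsCompact D → (∀ y ∈ D, opp1 y z) →
      ∀ U : Set (YY k 3), IsOpen U → U.Nonempty → ∃ γ, ∀ y ∈ D, q γ • y ∈ U) :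
    Prx q (fun z : YY k 3 => {y : YY k 3 | opp1 y z}) where
  op := op1
  all := all1
  meet := meet1
  prox := fun z D hD hc U hU hne => h z D hc (fun y hy => hD hy) U hU hne

/-- cells of lines, from proximality -/
theorem prx2_of [ProperSpace k] {Γ : Type} {q : Γ → S4 k}
    (h : ∀ (z : LL k) (D : Set (LL k)), IsCompact D → (∀ y ∈ D, opp2 y z) →
      ∀ U : Set (LL k), IsOpen U → U.Nonempty → ∃ γ, ∀ y ∈ D, q γ • y ∈ U) :
    Prx q (fun z : LL k => {y : LL k | opp2 y z}) where
  op := op2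
  all := all2
  meet := meet2
  prox := fun z D hD hc U hU hne => h z D hc (fun y hy => hD hy) U hU hne

end geo

section pic

variable {k : Type} [NontriviallyNormedField k] [ProperSpace k] {E Γ K : Type} [Group E]
  [TopologicalSpace E] [Group Γ] [NormedAddCommGroup K] [InnerProductSpace ℂ K] [CompleteSpace K]
  [MeasurableSpace k] {μ : Measure k} {w : kˣ} {𝒰 : Ultrafilter ℕ} {ι : S4 k →* E}
  {a : E →* PG k 4} {π : E →* (K →L[ℂ] K)} {lam : Γ →* (K →L[ℂ] K)} {W : Set (K →L[ℂ] K)}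
  {Ω : K} {m : Set Γ → (K →L[ℂ] K)} {q : Γ → S4 k}

theorem prx1 (hb : PB μ w 𝒰 ι a π lam W Ω m q) :
    Prx q (fun z : YY k 3 => {y : YY k 3 | opp1 y z}) := prx1_of hb.prox1

theorem prx2 (hb : PB μ w 𝒰 ι a π lam W Ω m q) :
    Prx q (fun z : LL k => {y : LL k | opp2 y z}) := prx2_of hb.prox2

end pic

end Vale.Agent.P092.H43.PPrx
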